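import Vale.Agent.P347Q.Mixing
import Vale.Agent.P347Q.Model
import Vale.Agent.P347Q.QuadEx

/-!
Module Final.  Choice of parameters: `κ > 0` given, `k = min (κ/4) (1/8)`, `ε = d^{-1/4-k}`,
`η = d^{-1/4-2k}`, `m` with `m k ≥ 2`, `n = ⌈8 log d / η⌉`; number of queries `(n+1)(N²+N) ≤ d^{1/4+κ}`.
-/

open MeasureTheory ProbabilityTheory Function
open scoped ENNReal BigOperators

namespace P347Q

theorem sqrt_rpow {D : ℝ} (hD : 0 < D) (a : ℝ) : √(D ^ a) = D ^ (a / 2) := by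
  rw [Real.sqrt_eq_rpow, ← Real.rpow_mul hD.le]
  congr 1
  ring

theorem defc_le {m : ℕ} {k : ℝ} (hk : 0 < k) (hk4 : k ≤ 1 / 8) (hm : 2 ≤ (m : ℝ) * k) {d : ℕ}
    (hd : 1 ≤ d) :
    defc m d ((d : ℝ) ^ (-(1 / 4 + k))) ((d : ℝ) ^ (-(1 / 4 + 2 * k))) ≤
      5 * (d : ℝ) ^ (-(1 / 4 + 2 * k) - 2 * k) := by
  have hD : (0 : ℝ) < d := by exact_mod_cast hd
  have hD1 : (1 : ℝ) ≤ d := by exact_mod_cast hd
  set D : ℝ := (d : ℝ) with hDdef
  have hsd : √D = D ^ (1 / 2 : ℝ) := Real.sqrt_eq_rpow D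
  have hsη : √(D ^ (-(1 / 4 + 2 * k))) = D ^ (-(1 / 4 + 2 * k) / 2) := sqrt_rpow hD _
  have pw : ∀ (a : ℝ) (n : ℕ), (D ^ a) ^ n = D ^ (a * n) := by
    intro a n
    rw [Real.rpow_mul hD.le, Real.rpow_natCast]
  have t1 : √D * (D ^ (-(1 / 4 + 2 * k)) * (D ^ (-(1 / 4 + k))) ^ 2) ≤
      D ^ (-(1 / 4 + 2 * k) - 2 * k) := by
    rw [hsd, pw, ← Real.rpow_add hD, ← Real.rpow_add hD]
    apply Real.rpow_le_rpow_of_exponent_le hD1
    push_cast
    linarith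
  have t2 : √D * ((D ^ (-(1 / 4 + 2 * k))) ^ 2 * √(D ^ (-(1 / 4 + 2 * k))) * D ^ (-(1 / 4 + k))) ≤
      D ^ (-(1 / 4 + 2 * k) - 2 * k) := by
    rw [hsd, hsη, pw, ← Real.rpow_add hD, ← Real.rpow_add hD, ← Real.rpow_add hD]
    apply Real.rpow_le_rpow_of_exponent_le hD1
    push_cast
    linarith
  have t3 : √D * ((D ^ (-(1 / 4 + 2 * k))) ^ 5 / √(D ^ (-(1 / 4 + 2 * k)))) ≤
      D ^ (-(1 / 4 + 2 * k) - 2 * k) := by
    rw [hsd, hsη, pw, ← Real.rpow_sub hD, ← Real.rpow_add hD]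
    apply Real.rpow_le_rpow_of_exponent_le hD1
    push_cast
    linarith
  have t4 : √D * (D ^ (-(1 / 4 + k)) * (D ^ (-(1 / 4 + 2 * k)) / D ^ (-(1 / 4 + k))) ^ m /
      √(D ^ (-(1 / 4 + 2 * k)))) ≤ D ^ (-(1 / 4 + 2 * k) - 2 * k) := by
    rw [hsd, hsη, ← Real.rpow_sub hD, pw, ← Real.rpow_add hD, ← Real.rpow_sub hD,
      ← Real.rpow_add hD]
    apply Real.rpow_le_rpow_of_exponent_le hD1
    have : (-(1 / 4 + 2 * k) - -(1 / 4 + k)) * (m : ℝ) = -((m : ℝ) * k) := by ring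
    rw [this]
    linarith
  have t5 : √D * (D ^ (-(1 / 4 + 2 * k))) ^ 3 ≤ D ^ (-(1 / 4 + 2 * k) - 2 * k) := by
    rw [hsd, pw, ← Real.rpow_add hD]
    apply Real.rpow_le_rpow_of_exponent_le hD1
    push_cast
    linarith
  unfold defc
  rw [add_div]
  have e : √D * (D ^ (-(1 / 4 + 2 * k)) * (D ^ (-(1 / 4 + k))) ^ 2 +
      (D ^ (-(1 / 4 + 2 * k))) ^ 2 * √(D ^ (-(1 / 4 + 2 * k))) * D ^ (-(1 / 4 + k)) +
      ((D ^ (-(1 / 4 + 2 * k))) ^ 5 / √(D ^ (-(1 / 4 + 2 * k))) +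
        D ^ (-(1 / 4 + k)) * (D ^ (-(1 / 4 + 2 * k)) / D ^ (-(1 / 4 + k))) ^ m /
          √(D ^ (-(1 / 4 + 2 * k)))) + (D ^ (-(1 / 4 + 2 * k))) ^ 3) =
      √D * (D ^ (-(1 / 4 + 2 * k)) * (D ^ (-(1 / 4 + k))) ^ 2) +
      √D * ((D ^ (-(1 / 4 + 2 * k))) ^ 2 * √(D ^ (-(1 / 4 + 2 * k))) * D ^ (-(1 / 4 + k))) +
      √D * ((D ^ (-(1 / 4 + 2 * k))) ^ 5 / √(D ^ (-(1 / 4 + 2 * k)))) +
      √D * (D ^ (-(1 / 4 + k)) * (D ^ (-(1 / 4 + 2 * k)) / D ^ (-(1 / 4 + k))) ^ m /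
          √(D ^ (-(1 / 4 + 2 * k)))) + √D * (D ^ (-(1 / 4 + 2 * k))) ^ 3 := by ring
  rw [← hDdef] at *
  rw [e]
  linarith

/-- the total variation bound with the chosen parameters -/
theorem tv_le {m : ℕ} {k : ℝ} (hk : 0 < k) (hk4 : k ≤ 1 / 8) (hm : 2 ≤ (m : ℝ) * k) {d : ℕ}
    (hd : 1 ≤ d) :
    (((⌈8 * Real.log d * (d : ℝ) ^ (1 / 4 + 2 * k)⌉₊ : ℕ) : ℝ) + 1) *
        defc m d ((d : ℝ) ^ (-(1 / 4 + k))) ((d : ℝ) ^ (-(1 / 4 + 2 * k))) +
      √d * √((1 - (d : ℝ) ^ (-(1 / 4 + 2 * k)) / 2) ^ ⌈8 * Real.log d * (d : ℝ) ^ (1 / 4 + 2 * k)⌉₊) /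
        ((d : ℝ) ^ (-(1 / 4 + 2 * k)) * √((d : ℝ) ^ (-(1 / 4 + 2 * k)))) +
      ((d : ℝ) ^ (-(1 / 4 + k))) ^ 2 * √d ≤
    (40 * Real.log d + 12) * (d : ℝ) ^ (-(2 * k)) := by
  have hD : (0 : ℝ) < d := by exact_mod_cast hd
  have hD1 : (1 : ℝ) ≤ d := by exact_mod_cast hd
  have hlog : 0 ≤ Real.log d := Real.log_nonneg hD1
  have hdef := defc_le hk hk4 hm hd
  set n := ⌈8 * Real.log d * (d : ℝ) ^ (1 / 4 + 2 * k)⌉₊ with hn
  set D : ℝ := (d : ℝ) with hDdef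
  have hβ1 : 1 ≤ D ^ (1 / 4 + 2 * k) := Real.one_le_rpow hD1 (by linarith)
  have hn1 : (n : ℝ) ≤ 8 * Real.log D * D ^ (1 / 4 + 2 * k) + 1 :=
    (Nat.ceil_lt_add_one (by positivity)).le
  have hn2 : 8 * Real.log D * D ^ (1 / 4 + 2 * k) ≤ n := Nat.le_ceil _
  have hn3 : (n : ℝ) + 1 ≤ (8 * Real.log D + 2) * D ^ (1 / 4 + 2 * k) := by nlinarith
  have hη0 : 0 < D ^ (-(1 / 4 + 2 * k)) := Real.rpow_pos_of_pos hD _
  have hη1 : D ^ (-(1 / 4 + 2 * k)) ≤ 1 :=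
    Real.rpow_le_one_of_one_le_of_nonpos hD1 (by linarith)
  -- first term
  have T1 : ((n : ℝ) + 1) * defc m d (D ^ (-(1 / 4 + k))) (D ^ (-(1 / 4 + 2 * k))) ≤
      (40 * Real.log D + 10) * D ^ (-(2 * k)) := by
    calc ((n : ℝ) + 1) * defc m d (D ^ (-(1 / 4 + k))) (D ^ (-(1 / 4 + 2 * k))) ≤
        ((n : ℝ) + 1) * (5 * D ^ (-(1 / 4 + 2 * k) - 2 * k)) := by gcongr
      _ ≤ ((8 * Real.log D + 2) * D ^ (1 / 4 + 2 * k)) * (5 * D ^ (-(1 / 4 + 2 * k) - 2 * k)) := by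
          gcongr
      _ = (40 * Real.log D + 10) * (D ^ (1 / 4 + 2 * k) * D ^ (-(1 / 4 + 2 * k) - 2 * k)) := by
          ring
      _ = _ := by
          rw [← Real.rpow_add hD]
          congr 2
          ring
  -- third term
  have T3 : (D ^ (-(1 / 4 + k))) ^ 2 * √D ≤ D ^ (-(2 * k)) := by
    rw [← Real.rpow_natCast, ← Real.rpow_mul hD.le, Real.sqrt_eq_rpow, ← Real.rpow_add hD]
    apply Real.rpow_le_rpow_of_exponent_le hD1
    push_cast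
    linarith
  -- second term
  have T2 : √D * √((1 - D ^ (-(1 / 4 + 2 * k)) / 2) ^ n) /
      (D ^ (-(1 / 4 + 2 * k)) * √(D ^ (-(1 / 4 + 2 * k)))) ≤ D ^ (-(2 * k)) := by
    have h1 : (1 - D ^ (-(1 / 4 + 2 * k)) / 2) ^ n ≤ D ^ (-4 : ℝ) := by
      have a1 : 1 - D ^ (-(1 / 4 + 2 * k)) / 2 ≤ Real.exp (-(D ^ (-(1 / 4 + 2 * k)) / 2)) := by
        have := Real.add_one_le_exp (-(D ^ (-(1 / 4 + 2 * k)) / 2))
        linarith
      have a0 : 0 ≤ 1 - D ^ (-(1 / 4 + 2 * k)) / 2 := by linarith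
      calc (1 - D ^ (-(1 / 4 + 2 * k)) / 2) ^ n ≤
          (Real.exp (-(D ^ (-(1 / 4 + 2 * k)) / 2))) ^ n := by gcongr
        _ = Real.exp (n * -(D ^ (-(1 / 4 + 2 * k)) / 2)) := by rw [← Real.exp_nat_mul]
        _ ≤ Real.exp (Real.log D * (-4)) := by
            apply Real.exp_le_exp.2
            have b1 : 8 * Real.log D ≤ n * D ^ (-(1 / 4 + 2 * k)) := by
              have b2 : 8 * Real.log D * (D ^ (1 / 4 + 2 * k) * D ^ (-(1 / 4 + 2 * k))) ≤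
                  n * D ^ (-(1 / 4 + 2 * k)) := by
                rw [← mul_assoc]
                gcongr
              rwa [← Real.rpow_add hD, add_neg_cancel, Real.rpow_zero, mul_one] at b2
            linarith
        _ = D ^ (-4 : ℝ) := by rw [Real.rpow_def_of_pos hD]
    have h2 : √((1 - D ^ (-(1 / 4 + 2 * k)) / 2) ^ n) ≤ D ^ (-2 : ℝ) := by
      calc √((1 - D ^ (-(1 / 4 + 2 * k)) / 2) ^ n) ≤ √(D ^ (-4 : ℝ)) := Real.sqrt_le_sqrt h1
        _ = D ^ (-2 : ℝ) := by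
          rw [sqrt_rpow hD]
          norm_num
    calc √D * √((1 - D ^ (-(1 / 4 + 2 * k)) / 2) ^ n) /
        (D ^ (-(1 / 4 + 2 * k)) * √(D ^ (-(1 / 4 + 2 * k)))) ≤
        √D * D ^ (-2 : ℝ) / (D ^ (-(1 / 4 + 2 * k)) * √(D ^ (-(1 / 4 + 2 * k)))) := by gcongr
      _ ≤ D ^ (-(2 * k)) := by
        rw [sqrt_rpow hD, Real.sqrt_eq_rpow, ← Real.rpow_add hD, ← Real.rpow_add hD,
          ← Real.rpow_sub hD]
        apply Real.rpow_le_rpow_of_exponent_le hD1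
        linarith
  linarith

theorem param_lim {k : ℝ} (hk : 0 < k) (C : ℝ) :
    Filter.Tendsto (fun d : ℕ => C * ((40 * Real.log d + 12) * (d : ℝ) ^ (-(2 * k))))
      Filter.atTop (nhds 0) := by
  have h1 : Filter.Tendsto (fun D : ℝ => Real.log D * D ^ (-(2 * k))) Filter.atTop (nhds 0) := by
    have := (isLittleO_log_rpow_atTop (r := 2 * k) (by positivity)).tendsto_div_nhds_zero
    refine this.congr' ?_
    filter_upwards [Filter.eventually_gt_atTop 0] with D hD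
    rw [Real.rpow_neg hD.le, div_eq_mul_inv]
  have h2 : Filter.Tendsto (fun D : ℝ => D ^ (-(2 * k))) Filter.atTop (nhds 0) :=
    tendsto_rpow_neg_atTop (by positivity)
  have h3 : Filter.Tendsto (fun D : ℝ => C * ((40 * Real.log D + 12) * D ^ (-(2 * k))))
      Filter.atTop (nhds 0) := by
    have := ((h1.const_mul 40).add (h2.const_mul 12)).const_mul C
    simp only [mul_zero, add_zero] at this
    refine this.congr fun D => ?_
    ring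
  exact h3.comp tendsto_natCast_atTop_atTop

theorem query_lim {k κ : ℝ} (hκ : 2 * k < κ) (M : ℝ) :
    ∀ᶠ d : ℕ in Filter.atTop,
      ((8 * Real.log d + 2) * (d : ℝ) ^ (1 / 4 + 2 * k)) * M ≤ (d : ℝ) ^ (1 / 4 + κ) := by
  have h1 : Filter.Tendsto (fun D : ℝ => Real.log D * D ^ (-(κ - 2 * k))) Filter.atTop (nhds 0) := by
    have := (isLittleO_log_rpow_atTop (r := κ - 2 * k) (by linarith)).tendsto_div_nhds_zero
    refine this.congr' ?_
    filter_upwards [Filter.eventually_gt_atTop 0] with D hD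
    rw [Real.rpow_neg hD.le, div_eq_mul_inv]
  have h2 : Filter.Tendsto (fun D : ℝ => D ^ (-(κ - 2 * k))) Filter.atTop (nhds 0) :=
    tendsto_rpow_neg_atTop (by linarith)
  have h3 : Filter.Tendsto (fun D : ℝ => (8 * Real.log D + 2) * D ^ (-(κ - 2 * k)) * M)
      Filter.atTop (nhds 0) := by
    have := ((h1.const_mul 8).add (h2.const_mul 2)).mul_const M
    simp only [mul_zero, add_zero, zero_mul] at this
    refine this.congr fun D => ?_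
    ring
  have h4 := h3.comp tendsto_natCast_atTop_atTop (α := ℕ)
  filter_upwards [h4.eventually (gt_mem_nhds (zero_lt_one)), Filter.eventually_ge_atTop 1]
    with d hd1 hd2
  have hD : (0 : ℝ) < d := by exact_mod_cast hd2
  simp only [Function.comp_apply] at hd1
  have e : (d : ℝ) ^ (1 / 4 + 2 * k) = (d : ℝ) ^ (-(κ - 2 * k)) * (d : ℝ) ^ (1 / 4 + κ) := by
    rw [← Real.rpow_add hD]
    congr 1
    ring
  rw [e]
  have hpos : 0 < (d : ℝ) ^ (1 / 4 + κ) := Real.rpow_pos_of_pos hD _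
  calc (8 * Real.log d + 2) * ((d : ℝ) ^ (-(κ - 2 * k)) * (d : ℝ) ^ (1 / 4 + κ)) * M =
      ((8 * Real.log d + 2) * (d : ℝ) ^ (-(κ - 2 * k)) * M) * (d : ℝ) ^ (1 / 4 + κ) := by ring
    _ ≤ 1 * (d : ℝ) ^ (1 / 4 + κ) := by gcongr
    _ = _ := one_mul _

theorem final (κ : ℝ) (hκ : 0 < κ) :
    ∀ᶠ d : ℕ in Filter.atTop, ∃ q : ℕ, (q : ℝ) ≤ (d : ℝ) ^ (1 / 4 + κ) ∧ Suff d q := by
  set k : ℝ := min (κ / 4) (1 / 8) with hk
  have hk0 : 0 < k := lt_min (by positivity) (by norm_num)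
  have hk8 : k ≤ 1 / 8 := min_le_right _ _
  have hkκ : 2 * k < κ := by
    have := min_le_left (κ / 4) (1 / 8 : ℝ)
    linarith
  obtain ⟨m, hm⟩ := exists_nat_ge (2 / k + 2)
  have hmk : 2 ≤ (m : ℝ) * k := by
    have : 2 / k ≤ m := by linarith
    rwa [div_le_iff₀ hk0] at this
  have hm2 : 2 ≤ m := by
    have : (2 : ℝ) ≤ m := by
      have : 0 ≤ 2 / k := by positivity
      linarith
    exact_mod_cast this
  obtain ⟨N, _, ⟨R⟩⟩ := rule_exists m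
  obtain ⟨C, η0, hC, hη0, hmix⟩ := mixing R hm2
  have hη : Filter.Tendsto (fun d : ℕ => (d : ℝ) ^ (-(1 / 4 + 2 * k))) Filter.atTop (nhds 0) :=
    (tendsto_rpow_neg_atTop (by positivity)).comp tendsto_natCast_atTop_atTop
  filter_upwards [hη.eventually (gt_mem_nhds hη0),
    (param_lim hk0 C).eventually (gt_mem_nhds (by norm_num : (0 : ℝ) < 1 / 10)),
    query_lim hkκ ((N : ℝ) ^ 2 + N), Filter.eventually_ge_atTop 1] with d h1 h2 h3 h4
  have hD : (0 : ℝ) < d := by exact_mod_cast h4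
  have hD1 : (1 : ℝ) ≤ d := by exact_mod_cast h4
  set n := ⌈8 * Real.log d * (d : ℝ) ^ (1 / 4 + 2 * k)⌉₊ with hn
  have hlog : 0 ≤ Real.log d := Real.log_nonneg hD1
  have hβ1 : 1 ≤ (d : ℝ) ^ (1 / 4 + 2 * k) := Real.one_le_rpow hD1 (by linarith)
  have hn1 : (n : ℝ) ≤ 8 * Real.log d * (d : ℝ) ^ (1 / 4 + 2 * k) + 1 :=
    (Nat.ceil_lt_add_one (by positivity)).le
  have hn3 : (n : ℝ) + 1 ≤ (8 * Real.log d + 2) * (d : ℝ) ^ (1 / 4 + 2 * k) := by nlinarith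
  refine ⟨(n + 1) * (N ^ 2 + N), ?_, ?_⟩
  · push_cast
    refine le_trans ?_ h3
    gcongr
  · obtain ⟨S, hS⟩ := model R d (n + 1) ((d : ℝ) ^ (-(1 / 4 + k))) ((d : ℝ) ^ (-(1 / 4 + 2 * k)))
    refine ⟨S, fun V hV B hB => ?_⟩
    rw [hS V]
    have hmx := hmix d V ((d : ℝ) ^ (-(1 / 4 + k))) ((d : ℝ) ^ (-(1 / 4 + 2 * k))) hV
      (Real.rpow_pos_of_pos hD _)
      (Real.rpow_le_one_of_one_le_of_nonpos hD1 (by linarith))
      (Real.rpow_pos_of_pos hD _) h1.le n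
    have htv := tv_le hk0 hk8 hmk h4
    rw [← hn] at htv
    have hmx2 := hmx (B.indicator 1) (measurable_one.indicator hB)
      (fun x => Set.indicator_nonneg (fun _ _ => zero_le_one) x)
      (fun x => Set.indicator_le' (fun _ _ => le_refl _) (fun _ _ => zero_le_one) x)
    rw [integral_indicator_one hB, integral_indicator_one hB] at hmx2
    refine hmx2.trans ?_
    refine le_trans ?_ h2.le
    gcongr

/-- the query complexity -/
noncomputable def Q (d : ℕ) : ℕ := sInf {q | Suff d q}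

/-- `γ_* ≤ 1/4` -/
theorem gamma_le :
    Filter.limsup (fun d : ℕ => ((Real.log (Q d) / Real.log d : ℝ) : EReal)) Filter.atTop ≤
      ((1 / 4 : ℝ) : EReal) := by
  have key : ∀ κ : ℝ, 0 < κ →
      Filter.limsup (fun d : ℕ => ((Real.log (Q d) / Real.log d : ℝ) : EReal)) Filter.atTop ≤
        ((1 / 4 + κ : ℝ) : EReal) := by
    intro κ hκ
    refine Filter.limsup_le_of_le (by isBoundedDefault) ?_
    filter_upwards [final κ hκ, Filter.eventually_ge_atTop 2] with d hd hd2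
    obtain ⟨q, hq, hs⟩ := hd
    have hQ : Q d ≤ q := Nat.sInf_le hs
    have hD1 : (1 : ℝ) < d := by exact_mod_cast hd2
    have hlog : 0 < Real.log d := Real.log_pos hD1
    rw [EReal.coe_le_coe_iff, div_le_iff₀ hlog]
    by_cases h0 : Q d = 0
    · rw [h0]
      simp only [Nat.cast_zero, Real.log_zero]
      positivity
    · have hQ1 : (0 : ℝ) < Q d := by exact_mod_cast Nat.pos_of_ne_zero h0
      have : (Q d : ℝ) ≤ (d : ℝ) ^ (1 / 4 + κ) := le_trans (by exact_mod_cast hQ) hq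
      calc Real.log (Q d) ≤ Real.log ((d : ℝ) ^ (1 / 4 + κ)) := Real.log_le_log hQ1 this
        _ = _ := Real.log_rpow (by linarith) _
  refine EReal.le_of_forall_lt_iff_le.1 fun z hz => ?_
  have hz' : (1 / 4 : ℝ) < z := by exact_mod_cast hz
  have := key (z - 1 / 4) (by linarith)
  rwa [add_sub_cancel] at this

end P347Q
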