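import Vale.Agent.P347Q.VarLap
import Vale.Agent.P347Q.Smooth

/-!
Module SmoothTV.  `TV(π_{V^{(ε)}}, π_V) ≤ 5 ε² √d` for a potential `V` of class `Pot`
(only `C²`), `V^{(ε)} = smooth ε V`.
Path: for `u > 0` let `V_u = smooth √u V` (an `SPot`, module `Smooth`).  For a bounded measurable
`f`, `d/du ∫ f dπ_{V_u} = -½ Cov_{π_{V_u}}(f, ΔV_u)`, which is bounded by
`½ (Var ΔV_u)^{1/2} ≤ 5 √d` (`var_lap`); the function `u ↦ ∫ f dπ_{V_u}` is continuous on
`[0, ε²]`; mean value theorem.
-/

open MeasureTheory ProbabilityTheory Function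
open scoped ENNReal BigOperators Topology

namespace P347Q

variable {d : ℕ}

theorem smooth_zero' (V : E d → ℝ) : smooth 0 V = V := by
  funext x
  simp [smooth]

/-- lower bound of the smoothed potential -/
theorem smooth_low {V : E d → ℝ} (hV : Pot d V) (ε : ℝ) (x : E d) :
    ‖x‖ ^ 2 / 2 ≤ smooth ε V x := by
  have h1 := (smooth_sub hV ε x).1
  have h2 := hV.lower_bound x
  linarith

theorem smooth_low' {V : E d → ℝ} (hV : Pot d V) (ε : ℝ) (x : E d) :
    0 + ‖x‖ ^ 2 / 4 ≤ smooth ε V x := by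
  have h1 := smooth_low hV ε x
  have h2 : 0 ≤ ‖x‖ ^ 2 := by positivity
  linarith

theorem smooth_cont' {V : E d → ℝ} (hV : Pot d V) {ε : ℝ} (hε : 0 ≤ ε) :
    Continuous (smooth ε V) := by
  rcases hε.eq_or_lt with h | h
  · rw [← h, smooth_zero']
    exact hV.cont
  · exact (smooth_spot hV h).cont

theorem lap_cont {U : E d → ℝ} (hU : SPot U) : Continuous (lap U) := by
  unfold lap
  refine continuous_finsetSum _ fun i _ => ?_
  exact (temp_dir (temp_dir hU.temp (bas d i)) (bas d i)).1.continuous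

/-- derivative of `∫ exp(-V_u) g` -/
theorem part_deriv {V : E d → ℝ} (hV : Pot d V) {g : E d → ℝ} (hg : Measurable g)
    (hg1 : ∀ x, |g x| ≤ 1) {u : ℝ} (hu : 0 < u) :
    HasDerivAt (fun r => ∫ x, Real.exp (-smooth (√r) V x) * g x)
      (∫ x, Real.exp (-smooth (√u) V x) * (-(1 / 2 * lap (smooth (√u) V) x) * g x)) u := by
  have hs : Set.Ioi (0 : ℝ) ∈ 𝓝 u := Ioi_mem_nhds hu
  have hb : Integrable (fun x : E d => (d : ℝ) * Real.exp (-(1 / 2) * ‖x‖ ^ 2)) :=
    (integrable_exp_sq (by norm_num)).const_mul _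
  have hbase : ∀ r : ℝ, ∀ x : E d, Real.exp (-smooth (√r) V x) ≤ Real.exp (-(1 / 2) * ‖x‖ ^ 2) := by
    intro r x
    apply Real.exp_le_exp.2
    have := smooth_low hV (√r) x
    linarith
  have := hasDerivAt_integral_of_dominated_loc_of_deriv_le (μ := (volume : Measure (E d)))
    (F := fun r x => Real.exp (-smooth (√r) V x) * g x)
    (F' := fun r x => Real.exp (-smooth (√r) V x) * (-(1 / 2 * lap (smooth (√r) V) x) * g x))
    (x₀ := u) (s := Set.Ioi 0) (bound := fun x => (d : ℝ) * Real.exp (-(1 / 2) * ‖x‖ ^ 2)) hs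
    ?_ ?_ ?_ ?_ hb ?_
  · exact this.2
  · filter_upwards [hs] with r hr
    have hc := smooth_cont' hV (Real.sqrt_nonneg r)
    exact ((Real.continuous_exp.comp hc.neg).measurable.mul hg).aestronglyMeasurable
  · have hc := smooth_cont' hV (Real.sqrt_nonneg u)
    refine (integrable_exp_sq (d := d) (b := 1 / 2) (by norm_num)).mono'
      ((Real.continuous_exp.comp hc.neg).measurable.mul hg).aestronglyMeasurable ?_
    filter_upwards with x
    rw [norm_mul, Real.norm_of_nonneg (Real.exp_nonneg _), Real.norm_eq_abs]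
    calc Real.exp (-smooth (√u) V x) * |g x| ≤ Real.exp (-(1 / 2) * ‖x‖ ^ 2) * 1 := by
          apply mul_le_mul (hbase u x) (hg1 x) (abs_nonneg _) (Real.exp_nonneg _)
      _ = _ := mul_one _
  · have hsp := smooth_spot hV (Real.sqrt_pos.2 hu)
    have hc := hsp.cont
    have hl := lap_cont hsp
    refine Measurable.aestronglyMeasurable ?_
    exact (Real.continuous_exp.comp hc.neg).measurable.mul
      (((hl.measurable.const_mul (1 / 2)).neg).mul hg)
  · filter_upwards with x r hr
    have hr' : (0 : ℝ) < r := hr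
    have hsp := smooth_spot hV (Real.sqrt_pos.2 hr')
    obtain ⟨l1, l2, -⟩ := lap_bounds hsp x
    have hd0 : (0 : ℝ) ≤ d := Nat.cast_nonneg d
    rw [norm_mul, Real.norm_of_nonneg (Real.exp_nonneg _), norm_mul, Real.norm_eq_abs,
      Real.norm_eq_abs, abs_neg, abs_of_nonneg (by linarith : (0 : ℝ) ≤ 1 / 2 * lap (smooth (√r) V) x)]
    calc Real.exp (-smooth (√r) V x) * (1 / 2 * lap (smooth (√r) V) x * |g x|) ≤
        Real.exp (-(1 / 2) * ‖x‖ ^ 2) * ((d : ℝ) * 1) := by
          apply mul_le_mul (hbase r x) _ _ (Real.exp_nonneg _)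
          · apply mul_le_mul (by linarith) (hg1 x) (abs_nonneg _) hd0
          · exact mul_nonneg (by linarith) (abs_nonneg _)
      _ = _ := by ring
  · filter_upwards with x r hr
    have hr' : (0 : ℝ) < r := hr
    have h1 := smooth_heat hV hr' x
    have h2 := (h1.neg.exp).mul_const (g x)
    refine h2.congr_deriv ?_
    simp only [Pi.neg_apply]
    ring

/-- continuity of `∫ exp(-V_u) g` -/
theorem part_cont {V : E d → ℝ} (hV : Pot d V) {g : E d → ℝ} (hg : Measurable g)
    (hg1 : ∀ x, |g x| ≤ 1) :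
    ContinuousOn (fun r => ∫ x, Real.exp (-smooth (√r) V x) * g x) (Set.Ici 0) := by
  intro u hu
  have hu' : (0 : ℝ) ≤ u := hu
  rcases hu'.eq_or_lt with h | h
  · have hbase : ∀ r : ℝ, ∀ x : E d,
        Real.exp (-smooth (√r) V x) ≤ Real.exp (-(1 / 2) * ‖x‖ ^ 2) := by
      intro r x
      apply Real.exp_le_exp.2
      have := smooth_low hV (√r) x
      linarith
    refine tendsto_integral_filter_of_dominated_convergence
      (fun x : E d => Real.exp (-(1 / 2) * ‖x‖ ^ 2)) ?_ ?_ (integrable_exp_sq (by norm_num)) ?_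
    · filter_upwards with r
      have hc := smooth_cont' hV (Real.sqrt_nonneg r)
      exact ((Real.continuous_exp.comp hc.neg).measurable.mul hg).aestronglyMeasurable
    · filter_upwards with r
      filter_upwards with x
      rw [norm_mul, Real.norm_of_nonneg (Real.exp_nonneg _), Real.norm_eq_abs]
      calc Real.exp (-smooth (√r) V x) * |g x| ≤ Real.exp (-(1 / 2) * ‖x‖ ^ 2) * 1 := by
            apply mul_le_mul (hbase r x) (hg1 x) (abs_nonneg _) (Real.exp_nonneg _)
        _ = _ := mul_one _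
    · filter_upwards with x
      rw [← h]
      simp only [Real.sqrt_zero, smooth_zero']
      have h1 : Filter.Tendsto (fun r : ℝ => smooth (√r) V x) (𝓝[Set.Ici 0] 0) (𝓝 (V x)) := by
        have hl : ∀ᶠ r in 𝓝[Set.Ici (0 : ℝ)] 0, V x ≤ smooth (√r) V x := by
          filter_upwards with r
          have := (smooth_sub hV (√r) x).1
          linarith
        have hr : ∀ᶠ r in 𝓝[Set.Ici (0 : ℝ)] 0, smooth (√r) V x ≤ V x + r * d := by
          filter_upwards [self_mem_nhdsWithin] with r hr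
          have := (smooth_sub hV (√r) x).2
          rw [Real.sq_sqrt hr] at this
          linarith
        have hlim : Filter.Tendsto (fun r : ℝ => V x + r * d) (𝓝[Set.Ici 0] 0) (𝓝 (V x)) := by
          have : Filter.Tendsto (fun r : ℝ => V x + r * d) (𝓝 0) (𝓝 (V x + 0 * d)) :=
            (Continuous.tendsto (by fun_prop) 0)
          simp only [zero_mul, add_zero] at this
          exact this.mono_left nhdsWithin_le_nhds
        exact tendsto_of_tendsto_of_tendsto_of_le_of_le' tendsto_const_nhds hlim hl hr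
      exact ((Real.continuous_exp.tendsto _).comp h1.neg).mul_const (g x)
  · exact (part_deriv hV hg hg1 h).continuousAt.continuousWithinAt

/-- first moment by second moment -/
theorem abs_int_le {X : Type*} [MeasurableSpace X] {μ : Measure X} [IsProbabilityMeasure μ]
    {h : X → ℝ} (h1 : Integrable h μ) (h2 : Integrable (fun x => h x ^ 2) μ) :
    ∫ x, |h x| ∂μ ≤ √(∫ x, h x ^ 2 ∂μ) := by
  have h1' : Integrable (fun x => |h x|) μ := h1.abs
  set c := ∫ x, |h x| ∂μ with hc
  have h3 : 0 ≤ ∫ x, (|h x| - c) ^ 2 ∂μ := integral_nonneg fun x => sq_nonneg _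
  have h4 : ∫ x, (|h x| - c) ^ 2 ∂μ = ∫ x, h x ^ 2 ∂μ - c ^ 2 := by
    have e : ∀ x, (|h x| - c) ^ 2 = h x ^ 2 - 2 * c * |h x| + c ^ 2 := by
      intro x
      have := sq_abs (h x)
      linear_combination this
    simp only [e]
    have a1 : Integrable (fun x => h x ^ 2 - 2 * c * |h x|) μ := h2.sub (h1'.const_mul (2 * c))
    rw [integral_add a1 (integrable_const _),
      integral_sub h2 (h1'.const_mul (2 * c)), integral_const_mul, ← hc, integral_const]
    simp only [probReal_univ, one_smul]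
    ring
  apply Real.le_sqrt_of_sq_le
  linarith

/-- the covariance bound -/
theorem cov_bound {U : E d → ℝ} (hU : SPot U) {f : E d → ℝ}
    (hf1 : ∀ x, |f x| ≤ 1) :
    |∫ x, f x * (lap U x - ∫ y, lap U y ∂(gibbs U)) ∂(gibbs U)| ≤ 10 * √d := by
  have := hU.prob
  set m := ∫ y, lap U y ∂(gibbs U) with hm
  have hlc := lap_cont hU
  have hd0 : (0 : ℝ) ≤ d := Nat.cast_nonneg d
  have hlb : ∀ x, |lap U x| ≤ 2 * d := by
    intro x
    obtain ⟨l1, l2, -⟩ := lap_bounds hU x
    rw [abs_of_nonneg (by linarith)]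
    exact l2
  have i0 : Integrable (lap U) (gibbs U) := by
    refine (integrable_const (2 * d : ℝ)).mono' hlc.aestronglyMeasurable ?_
    filter_upwards with x
    exact hlb x
  have i1 : Integrable (fun x => lap U x - m) (gibbs U) := i0.sub (integrable_const _)
  have i2 : Integrable (fun x => (lap U x - m) ^ 2) (gibbs U) := by
    refine (integrable_const ((2 * d + |m|) ^ 2 : ℝ)).mono'
      ((hlc.sub continuous_const).pow 2).aestronglyMeasurable ?_
    filter_upwards with x
    rw [norm_pow, Real.norm_eq_abs]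
    have : |lap U x - m| ≤ 2 * d + |m| := by
      have := hlb x
      calc |lap U x - m| ≤ |lap U x| + |m| := abs_sub _ _
        _ ≤ _ := by linarith
    exact pow_le_pow_left₀ (abs_nonneg _) this 2
  have i3 : Integrable (fun x => |lap U x - m|) (gibbs U) := i1.abs
  calc |∫ x, f x * (lap U x - m) ∂(gibbs U)| ≤ ∫ x, |f x * (lap U x - m)| ∂(gibbs U) := by
        exact abs_integral_le_integral_abs
    _ ≤ ∫ x, |lap U x - m| ∂(gibbs U) := by
        apply integral_mono_of_nonneg
        · filter_upwards with x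
          exact abs_nonneg _
        · exact i3
        · filter_upwards with x
          simp only [abs_mul]
          calc |f x| * |lap U x - m| ≤ 1 * |lap U x - m| := by
                apply mul_le_mul_of_nonneg_right (hf1 x) (abs_nonneg _)
            _ = _ := one_mul _
    _ ≤ √(∫ x, (lap U x - m) ^ 2 ∂(gibbs U)) := abs_int_le i1 i2
    _ ≤ √(100 * d) := by
        apply Real.sqrt_le_sqrt
        exact var_lap hU
    _ = 10 * √d := by
        rw [show (100 : ℝ) * d = 10 ^ 2 * d by norm_num, Real.sqrt_mul (by norm_num),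
          Real.sqrt_sq (by norm_num)]

theorem smooth_tv {d : ℕ} {V : E d → ℝ} (hV : Pot d V) {ε : ℝ} (hε : 0 < ε) (hε1 : ε ≤ 1) :
    TVle (gibbs (smooth ε V)) (gibbs V) (5 * ε ^ 2 * √d) := by
  intro f hfm hf0 hf1
  have hfa : ∀ x, |f x| ≤ 1 := fun x => by
    rw [abs_of_nonneg (hf0 x)]
    exact hf1 x
  have h1m : Measurable (fun _ : E d => (1 : ℝ)) := measurable_const
  have h1a : ∀ x : E d, |(fun _ : E d => (1 : ℝ)) x| ≤ 1 := fun x => by simp
  -- the quotient
  set N : ℝ → ℝ := fun r => ∫ x, Real.exp (-smooth (√r) V x) * f x with hN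
  set Z : ℝ → ℝ := fun r => ∫ x, Real.exp (-smooth (√r) V x) * (fun _ : E d => (1 : ℝ)) x with hZ
  have hZe : ∀ r, Z r = ∫ x, Real.exp (-smooth (√r) V x) := by
    intro r
    simp only [hZ, mul_one]
  have hZpos : ∀ r, 0 < Z r := by
    intro r
    rw [hZe]
    exact Z_pos (smooth_cont' hV (Real.sqrt_nonneg r)) (smooth_low' hV (√r))
  have hF : ∀ r, ∫ x, f x ∂(gibbs (smooth (√r) V)) = (Z r)⁻¹ * N r := by
    intro r
    rw [integral_gibbs (smooth_cont' hV (Real.sqrt_nonneg r)) (smooth_low' hV (√r)), hZe]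
  set F : ℝ → ℝ := fun r => (Z r)⁻¹ * N r with hFdef
  have hFc : ContinuousOn F (Set.Icc 0 (ε ^ 2)) := by
    have c1 := (part_cont hV hfm hfa).mono (Set.Icc_subset_Ici_self : Set.Icc 0 (ε ^ 2) ⊆ _)
    have c2 := (part_cont hV h1m h1a).mono (Set.Icc_subset_Ici_self : Set.Icc 0 (ε ^ 2) ⊆ _)
    exact (c2.inv₀ fun r _ => (hZpos r).ne').mul c1
  have hder : ∀ r, 0 < r → HasDerivAt F
      (-(1 / 2) * ∫ x, f x * (lap (smooth (√r) V) x -
        ∫ y, lap (smooth (√r) V) y ∂(gibbs (smooth (√r) V))) ∂(gibbs (smooth (√r) V))) r := by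
    intro r hr
    have hsp := smooth_spot hV (Real.sqrt_pos.2 hr)
    have hprob := hsp.prob
    have hlc := lap_cont hsp
    have d1 := part_deriv hV hfm hfa hr
    have d2 := part_deriv hV h1m h1a hr
    have d3 := (d2.fun_inv (hZpos r).ne').mul d1
    have hd0 : (0 : ℝ) ≤ d := Nat.cast_nonneg d
    have hlb : ∀ x, |lap (smooth (√r) V) x| ≤ 2 * d := by
      intro x
      obtain ⟨l1, l2, -⟩ := lap_bounds hsp x
      rw [abs_of_nonneg (by linarith)]
      exact l2
    set U := smooth (√r) V with hUdef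
    have hcU : Continuous U := hsp.cont
    have hlow := smooth_low' hV (√r)
    rw [← hUdef] at hlow
    have g1 : ∀ g : E d → ℝ, ∫ x, Real.exp (-U x) * g x = Z r * ∫ x, g x ∂(gibbs U) := by
      intro g
      rw [integral_gibbs hcU hlow g, ← mul_assoc, hZe, mul_inv_cancel₀, one_mul]
      exact (Z_pos hcU hlow).ne'
    have i1 : Integrable (fun x => f x * lap U x) (gibbs U) := by
      refine (integrable_const (2 * d : ℝ)).mono'
        (hfm.mul hlc.measurable).aestronglyMeasurable ?_
      filter_upwards with x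
      rw [norm_mul, Real.norm_eq_abs, Real.norm_eq_abs]
      calc |f x| * |lap U x| ≤ 1 * (2 * d) := by
            apply mul_le_mul (hfa x) (hlb x) (abs_nonneg _) (by norm_num)
        _ = _ := one_mul _
    have i2 : Integrable f (gibbs U) := by
      refine (integrable_const (1 : ℝ)).mono' hfm.aestronglyMeasurable ?_
      filter_upwards with x
      exact hfa x
    have e1 : ∫ x, f x * (lap U x - ∫ y, lap U y ∂(gibbs U)) ∂(gibbs U) =
        ∫ x, f x * lap U x ∂(gibbs U) - (∫ x, f x ∂(gibbs U)) * ∫ y, lap U y ∂(gibbs U) := by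
      have : ∀ x, f x * (lap U x - ∫ y, lap U y ∂(gibbs U)) =
          f x * lap U x - f x * ∫ y, lap U y ∂(gibbs U) := fun x => by ring
      simp only [this]
      rw [integral_sub i1 (i2.mul_const _), integral_mul_const]
    have e2 : N r = Z r * ∫ x, f x ∂(gibbs U) := g1 f
    have e3 : ∫ x, Real.exp (-U x) * (-(1 / 2 * lap U x) * f x) =
        Z r * (-(1 / 2) * ∫ x, f x * lap U x ∂(gibbs U)) := by
      rw [g1 (fun x => -(1 / 2 * lap U x) * f x)]
      congr 1
      rw [← integral_const_mul]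
      refine integral_congr_ae ?_
      filter_upwards with x
      ring
    have e4 : ∫ x, Real.exp (-U x) * (-(1 / 2 * lap U x) * (fun _ : E d => (1 : ℝ)) x) =
        Z r * (-(1 / 2) * ∫ x, lap U x ∂(gibbs U)) := by
      rw [g1 (fun x => -(1 / 2 * lap U x) * (fun _ : E d => (1 : ℝ)) x)]
      congr 1
      rw [← integral_const_mul]
      refine integral_congr_ae ?_
      filter_upwards with x
      ring
    refine d3.congr_deriv ?_
    rw [e3, e4]
    change -(Z r * (-(1 / 2) * ∫ x, lap U x ∂(gibbs U))) / (Z r) ^ 2 * N r +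
      (Z r)⁻¹ * (Z r * (-(1 / 2) * ∫ x, f x * lap U x ∂(gibbs U))) = _
    rw [e1, e2]
    have hz := (hZpos r).ne'
    field_simp
    ring
  -- mean value theorem
  have he : 0 < ε ^ 2 := by positivity
  obtain ⟨c, hc, hc2⟩ := exists_hasDerivAt_eq_slope F _ he hFc (fun r hr => hder r hr.1)
  have hsp := smooth_spot hV (Real.sqrt_pos.2 hc.1)
  have hcov := cov_bound hsp hfa
  have k1 : ∫ x, f x ∂(gibbs (smooth ε V)) = F (ε ^ 2) := by
    rw [hFdef]
    simp only
    rw [← hF, Real.sqrt_sq hε.le]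
  have k2 : ∫ x, f x ∂(gibbs V) = F 0 := by
    rw [hFdef]
    simp only
    rw [← hF, Real.sqrt_zero, smooth_zero']
  rw [k1, k2]
  have k3 : F (ε ^ 2) - F 0 = (-(1 / 2) * ∫ x, f x * (lap (smooth (√c) V) x -
        ∫ y, lap (smooth (√c) V) y ∂(gibbs (smooth (√c) V))) ∂(gibbs (smooth (√c) V))) * ε ^ 2 := by
    rw [hc2]
    rw [sub_zero]
    field_simp
  rw [k3, abs_mul, abs_mul, abs_of_pos he, abs_neg, abs_of_pos (by norm_num : (0 : ℝ) < 1 / 2)]
  calc 1 / 2 * _ * ε ^ 2 ≤ 1 / 2 * (10 * √d) * ε ^ 2 := by gcongr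
    _ = 5 * ε ^ 2 * √d := by ring

end P347Q
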