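import Vale.Agent.P347Q.Defect
import Vale.Agent.P347Q.Contraction
import Vale.Agent.P347Q.SmoothTV

/-!
Module Mixing.  The law of the position after `n+1` steps from `(0,0)`.
(1) `ν_n` = law of `run n` started from `phase U`: `TVle ν_n (phase U) (n * defect)` by induction
    (`TVle.map`, `TVle.prod_right`).
(2) synchronous coupling: `E √Q(run n z - run n (0,0)) ≤ √(1-η/2)^n E √Q(z) ≤ C √d √((1-η/2)^n)`
    (`step_contract`, `pot_mono`, `gibbs_norm_sq`, `smooth_grad_zero`).
(3) last step: position `= (Step ..).1 + η√η ζ₁`, `step_lip` and `gauss_shift_mix`.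
(4) `smooth_tv`.
-/

open MeasureTheory ProbabilityTheory Function
open scoped ENNReal BigOperators

namespace P347Q

theorem run_meas {d m N : ℕ} (R : Rule m N) {V : E d → ℝ} (hV : Pot d V) (ε η : ℝ) (n : ℕ) :
    Measurable (fun p : (E d × E d) × (Fin n → Noise N d) => run R V ε η n p.1 p.2) := by
  induction n with
  | zero => exact measurable_fst
  | succ n ih =>
    have h1 : Measurable (fun p : (E d × E d) × (Fin (n + 1) → Noise N d) =>
        (p.1, fun i : Fin n => p.2 i.castSucc)) := by fun_prop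
    have h2 := ih.comp h1
    have h3 : Measurable (fun p : (E d × E d) × (Fin (n + 1) → Noise N d) =>
        p.2 (Fin.last n)) := (measurable_pi_apply _).comp measurable_snd
    have h4 : (fun p : (E d × E d) × (Fin (n + 1) → Noise N d) => run R V ε η (n + 1) p.1 p.2) =
        (fun q : (E d × E d) × Noise N d => kick R V ε η q.1 q.2) ∘
        (fun p : (E d × E d) × (Fin (n + 1) → Noise N d) =>
          (run R V ε η n p.1 (fun i : Fin n => p.2 i.castSucc), p.2 (Fin.last n))) := by
      funext p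
      rfl
    rw [h4]
    exact (kick_measurable R hV ε η).comp (h2.prodMk h3)

theorem mp_snoc {X Y : Type*} [MeasurableSpace X] [MeasurableSpace Y] (P : Measure X) [SFinite P]
    (ν : Measure Y) [SigmaFinite ν] (n : ℕ) :
    MeasurePreserving (fun p : X × (Fin (n + 1) → Y) =>
        ((p.1, fun i : Fin n => p.2 i.castSucc), p.2 (Fin.last n)))
      (P.prod (Measure.pi fun _ : Fin (n + 1) => ν))
      ((P.prod (Measure.pi fun _ : Fin n => ν)).prod ν) := by
  have h1 := measurePreserving_piFinSuccAbove (fun _ : Fin (n + 1) => ν) (Fin.last n)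
  have h2 : MeasurePreserving Prod.swap (ν.prod (Measure.pi fun _ : Fin n => ν))
      ((Measure.pi fun _ : Fin n => ν).prod ν) := Measure.measurePreserving_swap
  have h3 := (MeasurePreserving.id P).prod (h2.comp h1)
  have h4 : MeasurePreserving (MeasurableEquiv.prodAssoc.symm : X × ((Fin n → Y) × Y) ≃ᵐ _)
      (P.prod ((Measure.pi fun _ : Fin n => ν).prod ν))
      ((P.prod (Measure.pi fun _ : Fin n => ν)).prod ν) :=
    (measurePreserving_prodAssoc P (Measure.pi fun _ : Fin n => ν) ν).symm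
  have h5 := h4.comp h3
  convert h5 using 1
  funext p
  simp only [Function.comp, Prod.map, id]
  refine Prod.ext (Prod.ext rfl ?_) rfl
  funext i
  change p.2 i.castSucc = p.2 ((Fin.last n).succAbove i)
  rw [Fin.succAbove_last]

/-- the law of the chain started from an almost stationary law -/
theorem run_stat {d m N : ℕ} (R : Rule m N) {V : E d → ℝ} (hV : Pot d V) (ε η : ℝ)
    (P : Measure (E d × E d)) [IsProbabilityMeasure P] {Δ : ℝ}
    (hΔ : TVle ((P.prod (noiseM N d)).map (fun p => kick R V ε η p.1 p.2)) P Δ) (n : ℕ) :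
    TVle ((P.prod (Measure.pi fun _ : Fin n => noiseM N d)).map
      (fun p => run R V ε η n p.1 p.2)) P (n * Δ) := by
  induction n with
  | zero =>
    have : (P.prod (Measure.pi fun _ : Fin 0 => noiseM N d)).map
        (fun p => run R V ε η 0 p.1 p.2) = P := by
      have h : (fun p : (E d × E d) × (Fin 0 → Noise N d) => run R V ε η 0 p.1 p.2) = Prod.fst :=
        rfl
      rw [h]
      exact measurePreserving_fst.map_eq
    rw [this]
    simpa using TVle.refl P
  | succ n ih =>
    have hk := kick_measurable R hV ε η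
    have hr := run_meas R hV ε η n
    have hs := mp_snoc P (noiseM N d) n
    have e1 : (P.prod (Measure.pi fun _ : Fin (n + 1) => noiseM N d)).map
        (fun p => run R V ε η (n + 1) p.1 p.2) =
        (((P.prod (Measure.pi fun _ : Fin n => noiseM N d)).map
          (fun p => run R V ε η n p.1 p.2)).prod (noiseM N d)).map
          (fun p => kick R V ε η p.1 p.2) := by
      have hf : (fun p : (E d × E d) × (Fin (n + 1) → Noise N d) =>
          run R V ε η (n + 1) p.1 p.2) =
          ((fun p : (E d × E d) × Noise N d => kick R V ε η p.1 p.2) ∘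
            Prod.map (fun p : (E d × E d) × (Fin n → Noise N d) => run R V ε η n p.1 p.2) id) ∘
          (fun p : (E d × E d) × (Fin (n + 1) → Noise N d) =>
            ((p.1, fun i : Fin n => p.2 i.castSucc), p.2 (Fin.last n))) := by
        funext p
        rfl
      rw [hf, ← Measure.map_map (hk.comp (hr.prodMap measurable_id)) hs.measurable, hs.map_eq,
        ← Measure.map_map hk (hr.prodMap measurable_id),
        ← Measure.map_prod_map _ _ hr measurable_id, Measure.map_id]
    rw [e1]
    have hp : IsProbabilityMeasure ((P.prod (Measure.pi fun _ : Fin n => noiseM N d)).map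
          (fun p => run R V ε η n p.1 p.2)) := Measure.isProbabilityMeasure_map hr.aemeasurable
    have h1 := (TVle.prod_right ih (noiseM N d)).map hk
    have h2 := h1.trans hΔ
    refine h2.mono (le_of_eq ?_)
    push_cast
    ring

theorem Qf_nonneg {d : ℕ} (z : E d × E d) : 0 ≤ Qf z := by unfold Qf; positivity

theorem Qf_cont (d : ℕ) : Continuous (fun z : E d × E d => Qf z) := by unfold Qf; fun_prop

/-- contraction of the synchronous coupling -/
theorem run_contract {m N : ℕ} (R : Rule m N) (hm : 1 ≤ m) :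
    ∃ η0 : ℝ, 0 < η0 ∧ η0 ≤ 1 ∧ ∀ (d : ℕ) (V : E d → ℝ), Pot d V → ∀ ε η : ℝ, 0 < η → η ≤ η0 →
      ∀ (n : ℕ) (z z' : E d × E d) (ω : Fin n → Noise N d),
        Qf (run R V ε η n z ω - run R V ε η n z' ω) ≤ (1 - η / 2) ^ n * Qf (z - z') := by
  obtain ⟨η0, h0, h⟩ := step_contract R hm
  refine ⟨min η0 1, by positivity, min_le_right _ _, ?_⟩
  intro d V hV ε η hη hηle n
  induction n with
  | zero => intro z z' ω; simp [run]
  | succ n ih =>
    intro z z' ω
    have h1 := h d (fun k y => gradient V (y + ε • blk k (ω (Fin.last n)).1))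
      (fun k => pot_mono hV _) η hη (hηle.trans (min_le_left _ _))
      (run R V ε η n z (fun i => ω i.castSucc)) (run R V ε η n z' (fun i => ω i.castSucc))
      (ω (Fin.last n)).2
    have h2 := ih z z' (fun i => ω i.castSucc)
    have hη1 : η ≤ 1 := hηle.trans (min_le_right _ _)
    calc Qf (run R V ε η (n + 1) z ω - run R V ε η (n + 1) z' ω)
        ≤ (1 - η / 2) * Qf (run R V ε η n z (fun i => ω i.castSucc) -
            run R V ε η n z' (fun i => ω i.castSucc)) := h1
      _ ≤ (1 - η / 2) * ((1 - η / 2) ^ n * Qf (z - z')) :=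
          mul_le_mul_of_nonneg_left h2 (by linarith)
      _ = (1 - η / 2) ^ (n + 1) * Qf (z - z') := by ring

theorem phase_Qf {d : ℕ} {V : E d → ℝ} (hV : Pot d V) {ε : ℝ} (hε : 0 < ε) (hε1 : ε ≤ 1) :
    Integrable (fun z => √(Qf z)) (phase (smooth ε V)) ∧
      ∫ z, √(Qf z) ∂(phase (smooth ε V)) ≤ 12 * √d := by
  have hU : SPot (smooth ε V) := smooth_spot hV hε
  have hP : IsProbabilityMeasure (phase (smooth ε V)) := phase_prob hU
  have hG : IsProbabilityMeasure (gibbs (smooth ε V)) := hU.prob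
  have hsq := spot_sq d
  have hGG : IsProbabilityMeasure (gibbs (fun v : E d => ‖v‖ ^ 2 / 2)) := hsq.prob
  have i1 : Integrable (fun x : E d => ‖x‖ ^ 2) (gibbs (smooth ε V)) := by
    have := (gibbs_integrable hU hsq.temp).const_mul 2
    refine this.congr (Filter.Eventually.of_forall fun x => ?_)
    simp only; ring
  have i2 : Integrable (fun x : E d => ‖x‖ ^ 2) (stdGaussian (E d)) := by
    rw [stdGaussian_eq_gibbs]
    have := (gibbs_integrable hsq hsq.temp).const_mul 2
    refine this.congr (Filter.Eventually.of_forall fun x => ?_)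
    simp only; ring
  have b1 : ∫ x, ‖x‖ ^ 2 ∂(gibbs (smooth ε V)) ≤ 6 * d := by
    have h1 := gibbs_norm_sq hU
    have h2 := smooth_grad_zero hV hε.le
    have h3 : ‖gradient (smooth ε V) 0‖ ^ 2 ≤ (2 * √d) ^ 2 := by
      refine pow_le_pow_left₀ (norm_nonneg _) (h2.trans ?_) 2
      have := Real.sqrt_nonneg (d : ℝ)
      nlinarith
    rw [mul_pow, Real.sq_sqrt (by positivity)] at h3
    linarith
  have b2 : ∫ x, ‖x‖ ^ 2 ∂(stdGaussian (E d)) ≤ 2 * d := by
    rw [stdGaussian_eq_gibbs]
    have h1 := gibbs_norm_sq hsq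
    have h2 : gradient (fun v : E d => ‖v‖ ^ 2 / 2) 0 = 0 := by
      have : fderiv ℝ (fun v : E d => ‖v‖ ^ 2 / 2) 0 = 0 := by
        apply IsLocalMin.fderiv_eq_zero
        refine Filter.Eventually.of_forall fun x => ?_
        have : 0 ≤ ‖x‖ ^ 2 / 2 := by positivity
        simpa using this
      simp [gradient, this]
    rw [h2] at h1
    simpa using h1
  have j1 : Integrable (fun z : E d × E d => ‖z.1‖ ^ 2) (phase (smooth ε V)) := i1.comp_fst _
  have j2 : Integrable (fun z : E d × E d => ‖z.2‖ ^ 2) (phase (smooth ε V)) := i2.comp_snd _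
  have c1 : ∫ z, ‖z.1‖ ^ 2 ∂(phase (smooth ε V)) = ∫ x, ‖x‖ ^ 2 ∂(gibbs (smooth ε V)) := by
    unfold phase
    rw [integral_fun_fst (fun x : E d => ‖x‖ ^ 2)]
    simp
  have c2 : ∫ z, ‖z.2‖ ^ 2 ∂(phase (smooth ε V)) = ∫ x, ‖x‖ ^ 2 ∂(stdGaussian (E d)) := by
    unfold phase
    rw [integral_fun_snd (fun x : E d => ‖x‖ ^ 2)]
    simp
  have hQ : ∀ z : E d × E d, Qf z ≤ 3 * ‖z.1‖ ^ 2 + 2 * ‖z.2‖ ^ 2 := by
    intro z
    unfold Qf
    have h1 := norm_add_le z.1 z.2
    have h2 : ‖z.1 + z.2‖ ^ 2 ≤ (‖z.1‖ + ‖z.2‖) ^ 2 := pow_le_pow_left₀ (norm_nonneg _) h1 2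
    nlinarith [sq_nonneg (‖z.1‖ - ‖z.2‖)]
  have jj : Integrable (fun z : E d × E d => 3 * ‖z.1‖ ^ 2 + 2 * ‖z.2‖ ^ 2)
      (phase (smooth ε V)) := (j1.const_mul 3).add (j2.const_mul 2)
  have bb : ∫ z, (3 * ‖z.1‖ ^ 2 + 2 * ‖z.2‖ ^ 2) ∂(phase (smooth ε V)) ≤ (22 : ℝ) * d := by
    rw [integral_add (j1.const_mul 3) (j2.const_mul 2), integral_const_mul, integral_const_mul,
      c1, c2]
    linarith
  have hsm : Continuous (fun z : E d × E d => √(Qf z)) := (Qf_cont d).sqrt
  have hI : Integrable (fun z => √(Qf z)) (phase (smooth ε V)) := by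
    refine Integrable.mono' (jj.add (integrable_const (1 : ℝ))) hsm.aestronglyMeasurable
      (Filter.Eventually.of_forall fun z => ?_)
    have h1 := hQ z
    have h2 := Real.sq_sqrt (Qf_nonneg z)
    have h3 := Real.sqrt_nonneg (Qf z)
    simp only [Real.norm_eq_abs, abs_of_nonneg h3, Pi.add_apply]
    nlinarith [sq_nonneg (√(Qf z) - 1)]
  refine ⟨hI, ?_⟩
  rcases Nat.eq_zero_or_pos d with h0 | hpos
  · subst h0
    have : ∀ z : E 0 × E 0, √(Qf z) = 0 := by
      intro z
      have h1 : z.1 = 0 := Subsingleton.elim _ _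
      have h2 : z.2 = 0 := Subsingleton.elim _ _
      simp [Qf, h1, h2]
    simp [this]
  · have hd : 0 < √(d : ℝ) := Real.sqrt_pos.2 (by exact_mod_cast hpos)
    have hdd : √(d : ℝ) ^ 2 = d := Real.sq_sqrt (by positivity)
    have hpt : ∀ z : E d × E d, √(Qf z) ≤
        (2 * √d)⁻¹ * (3 * ‖z.1‖ ^ 2 + 2 * ‖z.2‖ ^ 2) + √d / 2 * 1 := by
      intro z
      have h1 := hQ z
      have h2 := Real.sq_sqrt (Qf_nonneg z)
      have h4 : 2 * √d * √(Qf z) ≤ (3 * ‖z.1‖ ^ 2 + 2 * ‖z.2‖ ^ 2) + √d ^ 2 := by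
        nlinarith [sq_nonneg (√(Qf z) - √d)]
      have h5 : √(Qf z) = (2 * √d)⁻¹ * (2 * √d * √(Qf z)) := by field_simp
      rw [h5]
      refine (mul_le_mul_of_nonneg_left h4 (by positivity)).trans (le_of_eq ?_)
      field_simp
    have hmono := integral_mono (μ := phase (smooth ε V)) hI
      ((jj.const_mul ((2 * √d)⁻¹)).add ((integrable_const (1 : ℝ)).const_mul (√d / 2))) hpt
    refine hmono.trans ?_
    simp only [Pi.add_apply]
    rw [integral_add (jj.const_mul _) ((integrable_const (1 : ℝ)).const_mul _),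
      integral_const_mul, integral_const_mul]
    have h6 : (2 * √(d : ℝ))⁻¹ * ∫ z, (3 * ‖z.1‖ ^ 2 + 2 * ‖z.2‖ ^ 2) ∂(phase (smooth ε V)) ≤
        (2 * √(d : ℝ))⁻¹ * (22 * d) := mul_le_mul_of_nonneg_left bb (by positivity)
    have h7 : (2 * √(d : ℝ))⁻¹ * (22 * d) = 11 * √d := by
      have : (d : ℝ) = √d * √d := (Real.mul_self_sqrt (by positivity)).symm
      rw [inv_mul_eq_div, div_eq_iff (by positivity)]
      linear_combination 22 * this
    have h8 : ∫ _z : E d × E d, (1 : ℝ) ∂(phase (smooth ε V)) = 1 := by simp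
    rw [h8]
    linarith

theorem mp_last {X Y A B : Type*} [MeasurableSpace X] [MeasurableSpace A] [MeasurableSpace B]
    [MeasurableSpace Y]
    (P : Measure X) [IsProbabilityMeasure P] (ν : Measure Y) [IsProbabilityMeasure ν]
    (α : Measure A) [IsProbabilityMeasure α] (β : Measure B) [IsProbabilityMeasure β]
    (e : Y → A × (B × B)) (he : MeasurePreserving e ν (α.prod (β.prod β))) (n : ℕ) :
    MeasurePreserving (fun p : X × (Fin (n + 1) → Y) =>
        (((p.1, fun i : Fin n => p.2 i.castSucc), (e (p.2 (Fin.last n))).1),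
          (e (p.2 (Fin.last n))).2.1))
      (P.prod (Measure.pi fun _ : Fin (n + 1) => ν))
      (((P.prod (Measure.pi fun _ : Fin n => ν)).prod α).prod β) := by
  have h0 := mp_snoc P ν n
  have h1 := (MeasurePreserving.id (P.prod (Measure.pi fun _ : Fin n => ν))).prod he
  have h2 : MeasurePreserving (MeasurableEquiv.prodAssoc.symm :
      (X × (Fin n → Y)) × (A × (B × B)) ≃ᵐ _)
      ((P.prod (Measure.pi fun _ : Fin n => ν)).prod (α.prod (β.prod β)))
      (((P.prod (Measure.pi fun _ : Fin n => ν)).prod α).prod (β.prod β)) :=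
    (measurePreserving_prodAssoc _ _ _).symm
  have h3 : MeasurePreserving (Prod.map id Prod.fst :
      ((X × (Fin n → Y)) × A) × (B × B) → ((X × (Fin n → Y)) × A) × B)
      (((P.prod (Measure.pi fun _ : Fin n => ν)).prod α).prod (β.prod β))
      (((P.prod (Measure.pi fun _ : Fin n => ν)).prod α).prod β) :=
    (MeasurePreserving.id _).prod measurePreserving_fst
  exact ((h3.comp h2).comp h1).comp h0

theorem run_succ {d m N : ℕ} (R : Rule m N) (V : E d → ℝ) (ε η : ℝ) (n : ℕ) (z : E d × E d)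
    (ω : Fin (n + 1) → Noise N d) : run R V ε η (n + 1) z ω =
      kick R V ε η (run R V ε η n z (fun i => ω i.castSucc)) (ω (Fin.last n)) := rfl

theorem kick_fst {d m N : ℕ} (R : Rule m N) (V : E d → ℝ) (ε η : ℝ) (z : E d × E d)
    (ω : Noise N d) : (kick R V ε η z ω).1 =
      (Step R η (fun k y => gradient V (y + ε • blk k ω.1)) z).1 + (η * √η) • ω.2.1 := rfl

attribute [local irreducible] run kick Step

theorem last_cont {d m N : ℕ} (R : Rule m N) {V : E d → ℝ} (hV : Pot d V) (ε η : ℝ) :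
    Continuous (fun q : (E d × E d) × EuclideanSpace ℝ (Idx N × Fin d) =>
      Step R η (fun k y => gradient V (y + ε • blk k q.2)) q.1) := by
  refine step_cont_joint (X := (E d × E d) × EuclideanSpace ℝ (Idx N × Fin d)) R η
    (G := fun q k y => gradient V (y + ε • blk k q.2)) (fun k => ?_) (z := fun q => q.1)
    continuous_fst
  refine (pot_grad_cont hV).comp ?_
  exact continuous_snd.add (((blk_cont k).comp (by fun_prop)).const_smul ε)

theorem last_meas0 {d m N : ℕ} (R : Rule m N) {V : E d → ℝ} (hV : Pot d V) (ε η : ℝ) :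
    Measurable (fun q : (E d × E d) × EuclideanSpace ℝ (Idx N × Fin d) =>
      (Step R η (fun k y => gradient V (y + ε • blk k q.2)) q.1).1) :=
  measurable_fst.comp (last_cont R hV ε η).measurable

theorem gen_meas {X A B C : Type*} [MeasurableSpace X] [MeasurableSpace A] [MeasurableSpace B]
    [MeasurableSpace C] {S : A × B → C} (hS : Measurable S) {w : X → A} (hw : Measurable w) :
    Measurable (fun p : X × B => S (w p.1, p.2)) :=
  hS.comp ((hw.comp measurable_fst).prodMk measurable_snd)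

theorem last_meas {d m N : ℕ} (R : Rule m N) {V : E d → ℝ} (hV : Pot d V) (ε η : ℝ) {X : Type*}
    [MeasurableSpace X] {w : X → E d × E d} (hw : Measurable w) :
    Measurable (fun p : X × EuclideanSpace ℝ (Idx N × Fin d) =>
        (Step R η (fun k y => gradient V (y + ε • blk k p.2)) (w p.1)).1) :=
  gen_meas (last_meas0 R hV ε η) hw

/-- the law of the position after the last step -/
theorem last_step {d m N : ℕ} (R : Rule m N) {V : E d → ℝ} (hV : Pot d V) (ε η : ℝ) (n : ℕ)
    (P : Measure (E d × E d)) [IsProbabilityMeasure P]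
    {g : (E d × E d) × (Fin (n + 1) → Noise N d) → E d × E d}
    {w : (E d × E d) × (Fin n → Noise N d) → E d × E d} (hw : Measurable w)
    (hg : ∀ p, g p = kick R V ε η (w (p.1, fun i => p.2 i.castSucc)) (p.2 (Fin.last n))) :
    (P.prod (Measure.pi fun _ : Fin (n + 1) => noiseM N d)).map (fun p => (g p).1) =
      ((((P.prod (Measure.pi fun _ : Fin n => noiseM N d)).prod
        (stdGaussian (EuclideanSpace ℝ (Idx N × Fin d))))).prod (stdGaussian (E d))).map
        (fun q => (Step R η (fun k y => gradient V (y + ε • blk k q.1.2)) (w q.1.1)).1 +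
          (η * √η) • q.2) := by
  have hm1 := last_meas R hV ε η hw
  have he : MeasurePreserving (id : Noise N d → _) (noiseM N d)
      ((stdGaussian (EuclideanSpace ℝ (Idx N × Fin d))).prod
        ((stdGaussian (E d)).prod (stdGaussian (E d)))) := MeasurePreserving.id _
  have hΘ := mp_last P (noiseM N d) (stdGaussian (EuclideanSpace ℝ (Idx N × Fin d)))
    (stdGaussian (E d)) id he n
  have hm2 : Measurable (fun q : (((E d × E d) × (Fin n → Noise N d)) ×
        EuclideanSpace ℝ (Idx N × Fin d)) × E d =>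
        (Step R η (fun k y => gradient V (y + ε • blk k q.1.2)) (w q.1.1)).1 +
          (η * √η) • q.2) :=
    (hm1.comp measurable_fst).add (measurable_snd.const_smul (η * √η))
  rw [← hΘ.map_eq, Measure.map_map hm2 hΘ.measurable]
  refine congrArg (fun f => Measure.map f _) ?_
  funext p
  rw [hg p, kick_fst]
  rfl

theorem mixing {m N : ℕ} (R : Rule m N) (hm : 2 ≤ m) : ∃ C η0 : ℝ, 0 < C ∧ 0 < η0 ∧
    ∀ (d : ℕ) (V : E d → ℝ) (ε η : ℝ), Pot d V → 0 < ε → ε ≤ 1 → 0 < η → η ≤ η0 → ∀ n : ℕ,
      TVle (outLaw R V ε η (n + 1)) (gibbs V)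
        (C * ((n + 1) * defc m d ε η + √d * √((1 - η / 2) ^ n) / (η * √η) + ε ^ 2 * √d)) := by
  obtain ⟨C1, η1, hC1, hη1, hdef⟩ := defect R hm
  obtain ⟨η2, hη2, hη21, hcon⟩ := run_contract R (by omega : 1 ≤ m)
  obtain ⟨C3, η3, hC3, hη3, hlip⟩ := step_lip R (by omega : 1 ≤ m)
  refine ⟨C1 + 12 * C3 + 5, min η1 (min η2 η3), by positivity, by positivity, ?_⟩
  intro d V ε η hV hε hε1 hη hηle n
  have hl1 : η ≤ η1 := hηle.trans (min_le_left _ _)
  have hl2 : η ≤ η2 := hηle.trans ((min_le_right _ _).trans (min_le_left _ _))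
  have hl3 : η ≤ η3 := hηle.trans ((min_le_right _ _).trans (min_le_right _ _))
  have hη1' : η ≤ 1 := hl2.trans hη21
  have hU : SPot (smooth ε V) := smooth_spot hV hε
  have hP : IsProbabilityMeasure (phase (smooth ε V)) := phase_prob hU
  have hG : IsProbabilityMeasure (gibbs (smooth ε V)) := hU.prob
  have hΔ := hdef d V ε η hV hε hε1 hη hl1
  obtain ⟨hI, hI12⟩ := phase_Qf hV hε hε1
  generalize hPdef : phase (smooth ε V) = P at hP hΔ hI hI12
  have hη0 : 0 < √η := Real.sqrt_pos.2 hη
  have hrm := run_meas R hV ε η n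
  have hw0 : Measurable (fun p : (E d × E d) × (Fin n → Noise N d) =>
      run R V ε η n (0, 0) p.2) :=
    hrm.comp ((measurable_const (a := ((0 : E d), (0 : E d)))).prodMk measurable_snd)
  have ham := last_meas R hV ε η hw0
  have hbm := last_meas R hV ε η hrm
  have ea := last_step R hV ε η n P
    (g := fun p => run R V ε η (n + 1) (0, 0) p.2) hw0 (fun p => run_succ R V ε η n _ _)
  have eb := last_step R hV ε η n P
    (g := fun p => run R V ε η (n + 1) p.1 p.2) hrm (fun p => run_succ R V ε η n _ _)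
  set μ := (P.prod (Measure.pi fun _ : Fin n => noiseM N d)).prod
        (stdGaussian (EuclideanSpace ℝ (Idx N × Fin d))) with hμ
  have eb' : ((P.prod (Measure.pi fun _ : Fin (n + 1) => noiseM N d)).map
      (fun p => run R V ε η (n + 1) p.1 p.2)).map Prod.fst =
      (P.prod (Measure.pi fun _ : Fin (n + 1) => noiseM N d)).map
      (fun p => (run R V ε η (n + 1) p.1 p.2).1) :=
    Measure.map_map measurable_fst (run_meas R hV ε η (n + 1))
  have ea' : outLaw R V ε η (n + 1) =
      (P.prod (Measure.pi fun _ : Fin (n + 1) => noiseM N d)).map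
      (fun p => (run R V ε η (n + 1) (0, 0) p.2).1) := by
    have e0 : (Measure.pi fun _ : Fin (n + 1) => noiseM N d) =
        (P.prod (Measure.pi fun _ : Fin (n + 1) => noiseM N d)).map Prod.snd :=
      measurePreserving_snd.map_eq.symm
    have hm0 : Measurable (fun ω : Fin (n + 1) → Noise N d =>
        (run R V ε η (n + 1) (0, 0) ω).1) :=
      measurable_fst.comp ((run_meas R hV ε η (n + 1)).comp
        ((measurable_const (a := ((0 : E d), (0 : E d)))).prodMk measurable_id))
    have e1 := Measure.map_map (μ := P.prod (Measure.pi fun _ : Fin (n + 1) => noiseM N d))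
      hm0 measurable_snd
    rw [← e0] at e1
    exact e1
  rw [← ea'] at ea
  rw [← eb'] at eb
  set a : ((E d × E d) × (Fin n → Noise N d)) × EuclideanSpace ℝ (Idx N × Fin d) → E d :=
    fun p => (Step R η (fun k y => gradient V (y + ε • blk k p.2))
      (run R V ε η n (0, 0) p.1.2)).1 with ha
  set b : ((E d × E d) × (Fin n → Noise N d)) × EuclideanSpace ℝ (Idx N × Fin d) → E d :=
    fun p => (Step R η (fun k y => gradient V (y + ε • blk k p.2))
      (run R V ε η n p.1.1 p.1.2)).1 with hb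
  have hK0 : 0 ≤ √((1 - η / 2) ^ n) := Real.sqrt_nonneg _
  have hbd : ∀ p, ‖a p - b p‖ ≤ C3 * √((1 - η / 2) ^ n) * √(Qf p.1.1) := by
    intro p
    have h1 := hlip d (fun k y => gradient V (y + ε • blk k p.2)) (fun k => pot_mono hV _) η hη hl3
      (run R V ε η n (0, 0) p.1.2) (run R V ε η n p.1.1 p.1.2)
    have h2 := hcon d V hV ε η hη hl2 n (0, 0) p.1.1 p.1.2
    have h3 : Qf (((0 : E d), (0 : E d)) - p.1.1) = Qf p.1.1 := by
      unfold Qf
      simp only [Prod.fst_sub, Prod.snd_sub, zero_sub, norm_neg]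
      rw [← neg_add, norm_neg]
    rw [h3] at h2
    calc ‖a p - b p‖ ≤ C3 * √(Qf (run R V ε η n (0, 0) p.1.2 - run R V ε η n p.1.1 p.1.2)) := h1
      _ ≤ C3 * √((1 - η / 2) ^ n * Qf p.1.1) :=
          mul_le_mul_of_nonneg_left (Real.sqrt_le_sqrt h2) hC3.le
      _ = C3 * √((1 - η / 2) ^ n) * √(Qf p.1.1) := by
          rw [Real.sqrt_mul (pow_nonneg (by linarith) n)]; ring
  have hQi : Integrable (fun p : ((E d × E d) × (Fin n → Noise N d)) ×
      EuclideanSpace ℝ (Idx N × Fin d) => √(Qf p.1.1)) μ := (hI.comp_fst _).comp_fst _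
  have hQv : ∫ p, √(Qf p.1.1) ∂μ = ∫ z, √(Qf z) ∂P := by
    rw [hμ, integral_fun_fst (fun x : (E d × E d) × (Fin n → Noise N d) => √(Qf x.1)),
      integral_fun_fst (fun x : E d × E d => √(Qf x))]
    simp
  have hKi := hQi.const_mul (C3 * √((1 - η / 2) ^ n))
  have hint : Integrable (fun p => ‖a p - b p‖) μ := by
    refine Integrable.mono' hKi ((ham.sub hbm).norm.aestronglyMeasurable)
      (Filter.Eventually.of_forall fun p => ?_)
    rw [norm_norm]
    exact hbd p
  have hval : ∫ p, ‖a p - b p‖ ∂μ ≤ C3 * √((1 - η / 2) ^ n) * (12 * √d) := by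
    refine (integral_mono hint hKi hbd).trans ?_
    rw [integral_const_mul, hQv]
    exact mul_le_mul_of_nonneg_left hI12 (by positivity)
  have hshift := gauss_shift_mix μ ham hbm (σ := η * √η) (by positivity) hint
  have hshift' : TVle (outLaw R V ε η (n + 1))
      (((P.prod (Measure.pi fun _ : Fin (n + 1) => noiseM N d)).map
      (fun p => run R V ε η (n + 1) p.1 p.2)).map Prod.fst)
      ((∫ p, ‖a p - b p‖ ∂μ) / (η * √η)) := by
    rw [ea, eb]
    exact hshift
  have hst := (run_stat R hV ε η P hΔ (n + 1)).map (measurable_fst (α := E d) (β := E d))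
  have hPf : P.map Prod.fst = gibbs (smooth ε V) := by
    rw [← hPdef]
    unfold phase
    exact measurePreserving_fst.map_eq
  rw [hPf] at hst
  have htv := smooth_tv hV hε hε1
  refine ((hshift'.trans hst).trans htv).mono ?_
  have hD : 0 ≤ defc m d ε η := defc_nonneg m d hε.le hη.le
  have hX : 0 ≤ √(d : ℝ) * √((1 - η / 2) ^ n) / (η * √η) := by positivity
  have hY : 0 ≤ ε ^ 2 * √(d : ℝ) := by positivity
  have hZ : 0 ≤ ((n : ℝ) + 1) * defc m d ε η := by positivity
  have h1 : (∫ p, ‖a p - b p‖ ∂μ) / (η * √η) ≤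
      12 * C3 * (√(d : ℝ) * √((1 - η / 2) ^ n) / (η * √η)) := by
    refine (div_le_div_of_nonneg_right hval (by positivity)).trans (le_of_eq ?_)
    ring
  push_cast
  nlinarith [mul_nonneg hC1.le hX, mul_nonneg hC1.le hY, mul_nonneg hC3.le hY,
    mul_nonneg hC3.le hZ]

end P347Q
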