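import Vale.Agent.P347Q.Gibbs
import Vale.Agent.P347Q.Hess
import Vale.Agent.P262F.M3

/-!
Module Poincare.  Poincaré inequality for `gibbs U`, `Hess U ≥ 1`, constant 1, from the midpoint
Prékopa-Leindler inequality: for `f` with `|D²f| ≤ B`, `F = exp (δ f)`, `G = exp (-δ f)`,
`H = exp (δ² (1/2 + δ B) |∇f|²)` satisfy `F(m+z) G(m-z) ≤ exp(|z|²) H(m)²`, hence
`E exp(δ f) E exp(-δ f) ≤ (E H)²`; let `δ → 0`.  Temperate `f` by cutoffs.
-/

open MeasureTheory ProbabilityTheory Function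
open scoped ENNReal BigOperators Topology

namespace P347Q

namespace Poin

/-! ### midpoint Prékopa-Leindler for Lebesgue measure on `E d` -/

theorem midPL_pi_vol (n : ℕ) : P262F.MidPL (volume : Measure (Fin n → ℝ)) := by
  induction n with
  | zero =>
    intro f g h hf hg hh hfg
    rw [volume_pi, Measure.pi_of_empty (fun _ : Fin 0 => (volume : Measure ℝ)) (fun i => i.elim0)]
    rw [lintegral_dirac' _ hf, lintegral_dirac' _ hg, lintegral_dirac' _ hh]
    have := hfg (fun i => i.elim0) (fun i => i.elim0)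
    have e : (1 / 2 : ℝ) • ((fun i => i.elim0 : Fin 0 → ℝ) + (fun i => i.elim0)) =
      (fun i => i.elim0 : Fin 0 → ℝ) := Subsingleton.elim _ _
    rw [e] at this
    exact this
  | succ n ih =>
    have h1 := (volume_preserving_piFinSuccAbove (fun _ : Fin (n + 1) => ℝ) 0).symm
    rw [← h1.map_eq]
    apply P262F.MidPL.map
    · exact P262F.midPL_prod _ _ P262F.midPL_volume ih
    · exact (MeasurableEquiv.piFinSuccAbove (fun _ => ℝ) 0).symm.measurable
    · intro x y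
      ext i
      refine Fin.cases ?_ (fun j => ?_) i
      · simp [MeasurableEquiv.piFinSuccAbove]
        ring
      · simp [MeasurableEquiv.piFinSuccAbove]
        ring

theorem midPL_E (d : ℕ) : P262F.MidPL (volume : Measure (E d)) := by
  have h := PiLp.volume_preserving_toLp (Fin d)
  rw [← h.map_eq]
  exact (midPL_pi_vol d).map _ h.measurable (fun x y => rfl)

/-! ### second order Taylor estimates -/

theorem taylor_lower {d : ℕ} {u : E d → ℝ} (hu : ContDiff ℝ 2 u) {c : ℝ}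
    (h : ∀ x w : E d, c * ‖w‖ ^ 2 ≤ fderiv ℝ (fderiv ℝ u) x w w) (x w : E d) :
    u x + fderiv ℝ u x w + c / 2 * ‖w‖ ^ 2 ≤ u (x + w) := by
  have hd : Differentiable ℝ u := hu.differentiable (by norm_num)
  have hd1 : ContDiff ℝ 1 (fderiv ℝ u) := hu.fderiv_right (by norm_num)
  have hd2 : Differentiable ℝ (fderiv ℝ u) := hd1.differentiable (by norm_num)
  have hline : ∀ t : ℝ, HasDerivAt (fun t : ℝ => x + t • w) w t := by
    intro t
    have := ((hasDerivAt_id t).smul_const w).const_add x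
    simpa using this
  have h1 : ∀ t : ℝ, HasDerivAt (fun t : ℝ => u (x + t • w)) (fderiv ℝ u (x + t • w) w) t :=
    fun t => (hd _).hasFDerivAt.comp_hasDerivAt t (hline t)
  have h2 : ∀ t : ℝ, HasDerivAt (fun t : ℝ => fderiv ℝ u (x + t • w) w)
      (fderiv ℝ (fderiv ℝ u) (x + t • w) w w) t := by
    intro t
    have := (hd2 (x + t • w)).hasFDerivAt.comp_hasDerivAt t (hline t)
    simpa using this.clm_apply (hasDerivAt_const t w)
  set a : ℝ := fderiv ℝ u x w with ha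
  set s : ℝ := c * ‖w‖ ^ 2 with hs
  have m1 : Monotone (fun t : ℝ => fderiv ℝ u (x + t • w) w - s * t) := by
    apply monotone_of_hasDerivAt_nonneg (f' := fun t => fderiv ℝ (fderiv ℝ u) (x + t • w) w w - s)
    · intro t
      have := (h2 t).fun_sub ((hasDerivAt_id' t).const_mul s)
      rw [mul_one] at this
      exact this
    · intro t
      have := h (x + t • w) w
      simp only [Pi.zero_apply, sub_nonneg]
      linarith
  have k1 : ∀ t : ℝ, 0 ≤ t → a + s * t ≤ fderiv ℝ u (x + t • w) w := by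
    intro t ht
    have := m1 ht
    simp only [zero_smul, add_zero, mul_zero, sub_zero] at this
    linarith
  have m2 : MonotoneOn (fun t : ℝ => u (x + t • w) - a * t - s / 2 * t ^ 2) (Set.Ici 0) := by
    apply monotoneOn_of_deriv_nonneg (convex_Ici 0)
    · apply Continuous.continuousOn
      have : Continuous u := hu.continuous
      fun_prop
    · intro t _
      have := ((h1 t).fun_sub ((hasDerivAt_id' t).const_mul a)).fun_sub
        ((hasDerivAt_pow 2 t).const_mul (s / 2))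
      exact this.differentiableAt.differentiableWithinAt
    · intro t ht
      rw [interior_Ici] at ht
      have h3 := ((h1 t).fun_sub ((hasDerivAt_id' t).const_mul a)).fun_sub
        ((hasDerivAt_pow 2 t).const_mul (s / 2))
      have h4 : deriv (fun t : ℝ => u (x + t • w) - a * t - s / 2 * t ^ 2) t =
          fderiv ℝ u (x + t • w) w - a * 1 - s / 2 * ((2 : ℕ) * t ^ (2 - 1)) := h3.deriv
      rw [h4]
      have := k1 t (le_of_lt ht)
      norm_num
      linarith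
  have := m2 (Set.mem_Ici.2 le_rfl) (Set.mem_Ici.2 zero_le_one) zero_le_one
  simp only [zero_smul, add_zero, mul_zero, sub_zero, one_smul, mul_one] at this
  norm_num at this
  rw [hs] at this
  linarith


theorem gibbs_pl {d : ℕ} {U : E d → ℝ} (hU : SPot U) {F G H : E d → ℝ≥0∞} (hF : Measurable F)
    (hG : Measurable G) (hH : Measurable H)
    (h : ∀ m z, F (m + z) * G (m - z) ≤ ENNReal.ofReal (Real.exp (‖z‖ ^ 2)) * H m ^ 2) :
    (∫⁻ x, F x ∂(gibbs U)) * (∫⁻ x, G x ∂(gibbs U)) ≤ (∫⁻ x, H x ∂(gibbs U)) ^ 2 := by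
  have hUc : Continuous U := hU.contDiff.continuous
  have he : Measurable (fun x => ENNReal.ofReal (Real.exp (-U x))) := by
    have : Continuous (fun x => Real.exp (-U x)) := by fun_prop
    exact this.measurable.ennreal_ofReal
  have hpl := midPL_E d (fun x => ENNReal.ofReal (Real.exp (-U x)) * F x)
    (fun x => ENNReal.ofReal (Real.exp (-U x)) * G x)
    (fun x => ENNReal.ofReal (Real.exp (-U x)) * H x) (he.mul hF) (he.mul hG) (he.mul hH) (by
      intro x y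
      set m : E d := (1 / 2 : ℝ) • (x + y) with hm
      set z : E d := (1 / 2 : ℝ) • (x - y) with hz
      have hx : x = m + z := by rw [hm, hz]; module
      have hy : y = m - z := by rw [hm, hz]; module
      have h1 := taylor_lower hU.contDiff (c := 1) (by simpa using hU.lower) m z
      have h2 := taylor_lower hU.contDiff (c := 1) (by simpa using hU.lower) m (-z)
      rw [norm_neg, map_neg] at h2
      have h3 : ENNReal.ofReal (Real.exp (-U x)) * ENNReal.ofReal (Real.exp (-U y)) ≤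
          ENNReal.ofReal (Real.exp (-‖z‖ ^ 2)) * ENNReal.ofReal (Real.exp (-U m)) ^ 2 := by
        rw [← ENNReal.ofReal_mul (Real.exp_nonneg _), ← ENNReal.ofReal_pow (Real.exp_nonneg _),
          ← ENNReal.ofReal_mul (Real.exp_nonneg _)]
        apply ENNReal.ofReal_le_ofReal
        rw [← Real.exp_add, ← Real.exp_nat_mul, ← Real.exp_add]
        apply Real.exp_le_exp.2
        rw [hx, hy, sub_eq_add_neg m z]
        push_cast
        linarith
      have h4 := h m z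
      rw [← hx, ← hy] at h4
      have h5 : ENNReal.ofReal (Real.exp (-‖z‖ ^ 2)) * ENNReal.ofReal (Real.exp (‖z‖ ^ 2)) = 1 := by
        rw [← ENNReal.ofReal_mul (Real.exp_nonneg _), ← Real.exp_add]
        simp
      calc ENNReal.ofReal (Real.exp (-U x)) * F x * (ENNReal.ofReal (Real.exp (-U y)) * G y)
          = (ENNReal.ofReal (Real.exp (-U x)) * ENNReal.ofReal (Real.exp (-U y))) *
            (F x * G y) := by ring
        _ ≤ (ENNReal.ofReal (Real.exp (-‖z‖ ^ 2)) * ENNReal.ofReal (Real.exp (-U m)) ^ 2) *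
            (ENNReal.ofReal (Real.exp (‖z‖ ^ 2)) * H m ^ 2) := mul_le_mul' h3 h4
        _ = (ENNReal.ofReal (Real.exp (-‖z‖ ^ 2)) * ENNReal.ofReal (Real.exp (‖z‖ ^ 2))) *
            (ENNReal.ofReal (Real.exp (-U m)) * H m) ^ 2 := by ring
        _ = (ENNReal.ofReal (Real.exp (-U m)) * H m) ^ 2 := by rw [h5, one_mul])
  have key : ∀ K : E d → ℝ≥0∞, Measurable K → ∫⁻ x, K x ∂(gibbs U) =
      (∫⁻ x, ENNReal.ofReal (Real.exp (-U x)))⁻¹ *
        ∫⁻ x, ENNReal.ofReal (Real.exp (-U x)) * K x := by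
    intro K hK
    rw [gibbs, lintegral_smul_measure, lintegral_withDensity_eq_lintegral_mul _ he hK]
    rfl
  rw [key F hF, key G hG, key H hH]
  set c := (∫⁻ x, ENNReal.ofReal (Real.exp (-U x)))⁻¹
  calc c * (∫⁻ x, ENNReal.ofReal (Real.exp (-U x)) * F x) *
        (c * ∫⁻ x, ENNReal.ofReal (Real.exp (-U x)) * G x)
      = c ^ 2 * ((∫⁻ x, ENNReal.ofReal (Real.exp (-U x)) * F x) *
        ∫⁻ x, ENNReal.ofReal (Real.exp (-U x)) * G x) := by ring
    _ ≤ c ^ 2 * (∫⁻ x, ENNReal.ofReal (Real.exp (-U x)) * H x) ^ 2 := mul_le_mul_right hpl _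
    _ = _ := by ring

theorem le_cosh (t : ℝ) : 1 + t ^ 2 / 2 ≤ Real.cosh t := by
  have h1 : Real.cosh t = 1 + 2 * Real.sinh (t / 2) ^ 2 := by
    have := Real.cosh_two_mul (t / 2)
    rw [mul_div_cancel₀ t (by norm_num)] at this
    rw [this, Real.cosh_sq]
    ring
  have h2 : (t / 2) ^ 2 ≤ Real.sinh (t / 2) ^ 2 := by
    apply sq_le_sq.2
    rcases le_total 0 (t / 2) with h | h
    · rw [abs_of_nonneg h, abs_of_nonneg (Real.sinh_nonneg_iff.2 h)]
      exact Real.self_le_sinh_iff.2 h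
    · rw [abs_of_nonpos h, abs_of_nonpos (Real.sinh_nonpos_iff.2 h)]
      have := Real.sinh_le_self_iff.2 h
      linarith
  rw [h1]
  nlinarith

/-- exponential moments, one fixed small parameter -/
theorem exp_step {d : ℕ} {U : E d → ℝ} (hU : SPot U) {f : E d → ℝ} (hf : ContDiff ℝ 2 f)
    {A B G : ℝ} (hA : ∀ x, |f x| ≤ A) (hG : ∀ x, ‖fderiv ℝ f x‖ ≤ G) (hB0 : 0 ≤ B)
    (hB : ∀ x w, |fderiv ℝ (fderiv ℝ f) x w w| ≤ B * ‖w‖ ^ 2) {δ : ℝ} (hδ : 0 < δ)
    (hδB : δ * B ≤ 1 / 2) :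
    (∫ x, Real.exp (δ * f x) ∂(gibbs U)) * (∫ x, Real.exp (-(δ * f x)) ∂(gibbs U)) ≤
      (∫ x, Real.exp (δ ^ 2 * (1 / 2 + δ * B) * ‖fderiv ℝ f x‖ ^ 2) ∂(gibbs U)) ^ 2 := by
  have := hU.prob
  have hfc : Continuous f := hf.continuous
  have hfc1 : Continuous (fderiv ℝ f) := hf.continuous_fderiv (by norm_num)
  have bdd : ∀ φ : E d → ℝ, Continuous φ → (∃ K, ∀ x, |φ x| ≤ K) →
      Integrable (fun x => Real.exp (φ x)) (gibbs U) := by
    rintro φ hφ ⟨K, hK⟩
    refine Integrable.of_bound (by fun_prop : Continuous fun x => Real.exp (φ x)).aestronglyMeasurable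
      (Real.exp K) (Filter.Eventually.of_forall fun x => ?_)
    rw [Real.norm_of_nonneg (Real.exp_nonneg _)]
    exact Real.exp_le_exp.2 ((le_abs_self _).trans (hK x))
  have hc : 0 ≤ δ ^ 2 * (1 / 2 + δ * B) := by positivity
  have i1 := bdd (fun x => δ * f x) (by fun_prop) ⟨δ * A, fun x => by
    rw [abs_mul, abs_of_pos hδ]; exact mul_le_mul_of_nonneg_left (hA x) hδ.le⟩
  have i2 := bdd (fun x => -(δ * f x)) (by fun_prop) ⟨δ * A, fun x => by
    rw [abs_neg, abs_mul, abs_of_pos hδ]; exact mul_le_mul_of_nonneg_left (hA x) hδ.le⟩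
  have i3 := bdd (fun x => δ ^ 2 * (1 / 2 + δ * B) * ‖fderiv ℝ f x‖ ^ 2) (by fun_prop)
    ⟨δ ^ 2 * (1 / 2 + δ * B) * G ^ 2, fun x => by
      rw [abs_of_nonneg (by positivity)]
      exact mul_le_mul_of_nonneg_left (pow_le_pow_left₀ (norm_nonneg _) (hG x) 2) hc⟩
  have hpl := gibbs_pl hU (F := fun x => ENNReal.ofReal (Real.exp (δ * f x)))
    (G := fun x => ENNReal.ofReal (Real.exp (-(δ * f x))))
    (H := fun x => ENNReal.ofReal (Real.exp (δ ^ 2 * (1 / 2 + δ * B) * ‖fderiv ℝ f x‖ ^ 2)))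
    (by fun_prop : Continuous fun x => Real.exp (δ * f x)).measurable.ennreal_ofReal
    (by fun_prop : Continuous fun x => Real.exp (-(δ * f x))).measurable.ennreal_ofReal
    (by fun_prop : Continuous fun x => Real.exp
      (δ ^ 2 * (1 / 2 + δ * B) * ‖fderiv ℝ f x‖ ^ 2)).measurable.ennreal_ofReal (by
      intro m z
      rw [← ENNReal.ofReal_mul (Real.exp_nonneg _), ← ENNReal.ofReal_pow (Real.exp_nonneg _),
        ← ENNReal.ofReal_mul (Real.exp_nonneg _)]
      apply ENNReal.ofReal_le_ofReal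
      rw [← Real.exp_add, ← Real.exp_nat_mul, ← Real.exp_add]
      apply Real.exp_le_exp.2
      have t1 := taylor_lower hf (c := -B) (fun x w => by
        have := (abs_le.1 (hB x w)).1; linarith) m (-z)
      have t2 := taylor_lower hf.neg (c := -B) (fun x w => by
        have h1 : (fderiv ℝ fun y => -f y) = fun y => -fderiv ℝ f y := by
          funext y; exact fderiv_fun_neg
        have h2 : fderiv ℝ (fderiv ℝ fun y => -f y) x = -fderiv ℝ (fderiv ℝ f) x := by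
          rw [h1]; exact fderiv_fun_neg
        rw [h2]
        have := (abs_le.1 (hB x w)).2
        simp only [neg_apply]
        linarith) m z
      have h1 : fderiv ℝ (fun y => -f y) m = -fderiv ℝ f m := fderiv_fun_neg
      rw [h1] at t2
      simp only [ neg_apply, map_neg, norm_neg,
        ← sub_eq_add_neg] at t1 t2
      have t3 : fderiv ℝ f m z ≤ ‖fderiv ℝ f m‖ * ‖z‖ :=
        (le_abs_self _).trans ((fderiv ℝ f m).le_opNorm z)
      set g := ‖fderiv ℝ f m‖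
      set r := ‖z‖
      have hg : 0 ≤ g := norm_nonneg _
      have hr : 0 ≤ r := norm_nonneg _
      have t4 : f (m + z) - f (m - z) ≤ 2 * (g * r) + B * r ^ 2 := by linarith
      have t5 : δ * (f (m + z) - f (m - z)) ≤ δ * (2 * (g * r) + B * r ^ 2) :=
        mul_le_mul_of_nonneg_left t4 hδ.le
      -- δ (2 g r + B r²) ≤ r² + δ² (1 + 2 δ B) g²
      have t6 : 0 ≤ ((1 - δ * B) * r - δ * g) ^ 2 := sq_nonneg _
      have hy : 0 ≤ δ * B := by positivity
      have t7 : δ * (2 * (g * r)) * (1 - δ * B) ≤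
          ((1 - δ * B) * r ^ 2 + δ ^ 2 * (1 + 2 * (δ * B)) * g ^ 2) * (1 - δ * B) := by
        have : δ ^ 2 * g ^ 2 ≤ δ ^ 2 * g ^ 2 * ((1 + 2 * (δ * B)) * (1 - δ * B)) := by
          apply le_mul_of_one_le_right (by positivity)
          nlinarith
        nlinarith
      have t8 : δ * (2 * (g * r)) ≤ (1 - δ * B) * r ^ 2 + δ ^ 2 * (1 + 2 * (δ * B)) * g ^ 2 :=
        le_of_mul_le_mul_right t7 (by linarith)
      push_cast
      nlinarith)
  rw [← ofReal_integral_eq_lintegral_ofReal i1 (Filter.Eventually.of_forall fun _ =>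
      Real.exp_nonneg _), ← ofReal_integral_eq_lintegral_ofReal i2
      (Filter.Eventually.of_forall fun _ => Real.exp_nonneg _),
    ← ofReal_integral_eq_lintegral_ofReal i3 (Filter.Eventually.of_forall fun _ =>
      Real.exp_nonneg _), ← ENNReal.ofReal_mul (integral_nonneg fun _ => Real.exp_nonneg _),
    ← ENNReal.ofReal_pow (integral_nonneg fun _ => Real.exp_nonneg _)] at hpl
  exact (ENNReal.ofReal_le_ofReal_iff (by positivity)).1 hpl


theorem sinh_sub_le {t : ℝ} (ht : |t| ≤ 1) : |Real.sinh t - t| ≤ t ^ 2 := by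
  have h1 := Real.abs_exp_sub_one_sub_id_le ht
  have h2 := Real.abs_exp_sub_one_sub_id_le (x := -t) (by rwa [abs_neg])
  rw [Real.sinh_eq]
  rw [abs_le] at *
  constructor <;> nlinarith [h1.1, h1.2, h2.1, h2.2]

theorem var_step {d : ℕ} {U : E d → ℝ} (hU : SPot U) {f : E d → ℝ} (hf : ContDiff ℝ 2 f)
    {A B G : ℝ} (hA : ∀ x, |f x| ≤ A) (hG : ∀ x, ‖fderiv ℝ f x‖ ≤ G) (hB0 : 0 ≤ B)
    (hB : ∀ x w, |fderiv ℝ (fderiv ℝ f) x w w| ≤ B * ‖w‖ ^ 2) {δ : ℝ} (hδ : 0 < δ)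
    (hδB : δ * B ≤ 1 / 2) (hδA : δ * (2 * A) ≤ 1) (hδG : δ ^ 2 * G ^ 2 ≤ 1) :
    ∫ x, (f x - ∫ y, f y ∂(gibbs U)) ^ 2 ∂(gibbs U) -
        δ ^ 2 * (∫ x, (f x - ∫ y, f y ∂(gibbs U)) ^ 2 ∂(gibbs U)) ^ 2 ≤
      2 * ((1 / 2 + δ * B) * ∫ x, ‖fderiv ℝ f x‖ ^ 2 ∂(gibbs U) + δ ^ 2 * G ^ 4) +
        δ ^ 2 * ((1 / 2 + δ * B) * ∫ x, ‖fderiv ℝ f x‖ ^ 2 ∂(gibbs U) + δ ^ 2 * G ^ 4) ^ 2 := by
  have hprob := hU.prob
  have hfc : Continuous f := hf.continuous
  have hfc1 : Continuous (fderiv ℝ f) := hf.continuous_fderiv (by norm_num)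
  have hG0 : 0 ≤ G := (norm_nonneg _).trans (hG 0)
  have hA0 : 0 ≤ A := (abs_nonneg _).trans (hA 0)
  have bdd : ∀ φ : E d → ℝ, Continuous φ → (K : ℝ) → (∀ x, |φ x| ≤ K) →
      Integrable φ (gibbs U) := by
    intro φ hφ K hK
    exact Integrable.of_bound hφ.aestronglyMeasurable K (Filter.Eventually.of_forall hK)
  have ifx := bdd f hfc A hA
  set a := ∫ y, f y ∂(gibbs U) with ha
  have haA : |a| ≤ A := by
    have := norm_integral_le_of_norm_le_const (μ := gibbs U) (f := f) (C := A)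
      (Filter.Eventually.of_forall hA)
    simpa using this
  have hg : ∀ x, |f x - a| ≤ 2 * A := by
    intro x
    have h1 := abs_sub (f x) a
    have h2 := hA x
    linarith
  have hgc : Continuous fun x => f x - a := by fun_prop
  have ig := bdd (fun x => f x - a) hgc _ hg
  have ig2 : Integrable (fun x => (f x - a) ^ 2) (gibbs U) :=
    bdd _ (by fun_prop) ((2 * A) ^ 2) fun x => by
      rw [abs_pow]; exact pow_le_pow_left₀ (abs_nonneg _) (hg x) 2
  have ig0 : ∫ x, (f x - a) ∂(gibbs U) = 0 := by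
    rw [integral_sub ifx (integrable_const _), integral_const]
    simp [ha]
  set V := ∫ x, (f x - a) ^ 2 ∂(gibbs U) with hV
  have hV0 : 0 ≤ V := integral_nonneg fun _ => sq_nonneg _
  have hs : ∀ x, |δ * (f x - a)| ≤ 1 := by
    intro x
    rw [abs_mul, abs_of_pos hδ]
    exact (mul_le_mul_of_nonneg_left (hg x) hδ.le).trans hδA
  have icosh : Integrable (fun x => Real.cosh (δ * (f x - a))) (gibbs U) :=
    bdd _ (by fun_prop) (Real.cosh 1) fun x => by
      rw [abs_of_pos (Real.cosh_pos _)]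
      exact Real.cosh_le_cosh.2 (by simpa using hs x)
  have isinh : Integrable (fun x => Real.sinh (δ * (f x - a))) (gibbs U) :=
    bdd _ (by fun_prop) (Real.cosh 1) fun x => by
      have h1 : |Real.sinh (δ * (f x - a))| ≤ Real.cosh (δ * (f x - a)) := by
        rw [abs_le]
        constructor
        · have := Real.exp_pos (δ * (f x - a))
          rw [Real.sinh_eq, Real.cosh_eq]
          linarith
        · exact Real.sinh_lt_cosh _ |>.le
      exact h1.trans (Real.cosh_le_cosh.2 (by simpa using hs x))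
  set u := ∫ x, Real.cosh (δ * (f x - a)) ∂(gibbs U) with hu
  set v := ∫ x, Real.sinh (δ * (f x - a)) ∂(gibbs U) with hv
  have e1 : ∫ x, Real.exp (δ * f x) ∂(gibbs U) = Real.exp (δ * a) * (u + v) := by
    rw [hu, hv, ← integral_add icosh isinh, ← integral_const_mul]
    congr 1
    funext x
    rw [Real.cosh_add_sinh, ← Real.exp_add]
    congr 1
    ring
  have e2 : ∫ x, Real.exp (-(δ * f x)) ∂(gibbs U) = Real.exp (-(δ * a)) * (u - v) := by
    rw [hu, hv, ← integral_sub icosh isinh, ← integral_const_mul]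
    congr 1
    funext x
    rw [Real.cosh_sub_sinh, ← Real.exp_add]
    congr 1
    ring
  have hstep := exp_step hU hf hA hG hB0 hB hδ hδB
  rw [e1, e2] at hstep
  have e3 : Real.exp (δ * a) * (u + v) * (Real.exp (-(δ * a)) * (u - v)) = u ^ 2 - v ^ 2 := by
    have : Real.exp (δ * a) * Real.exp (-(δ * a)) = 1 := by rw [← Real.exp_add]; simp
    linear_combination (u + v) * (u - v) * this
  rw [e3] at hstep
  have hu1 : 1 + δ ^ 2 * V / 2 ≤ u := by
    have h1 : ∫ x, (1 + δ ^ 2 / 2 * (f x - a) ^ 2) ∂(gibbs U) ≤ u := by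
      apply integral_mono ((integrable_const _).add (ig2.const_mul _)) icosh
      intro x
      have := le_cosh (δ * (f x - a))
      simp only [Pi.add_apply] at *
      linarith [mul_pow δ (f x - a) 2]
    rw [integral_add (integrable_const _) (ig2.const_mul _), integral_const_mul] at h1
    simp only [integral_const, probReal_univ, smul_eq_mul, mul_one] at h1
    linarith
  have hv1 : |v| ≤ δ ^ 2 * V := by
    have h1 : v = ∫ x, (Real.sinh (δ * (f x - a)) - δ * (f x - a)) ∂(gibbs U) := by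
      rw [integral_sub isinh (ig.const_mul _), integral_const_mul, ig0, mul_zero, sub_zero]
    rw [h1]
    refine (abs_integral_le_integral_abs).trans ?_
    have h2 : δ ^ 2 * V = ∫ x, δ ^ 2 * (f x - a) ^ 2 ∂(gibbs U) := by
      rw [integral_const_mul]
    rw [h2]
    apply integral_mono (isinh.sub (ig.const_mul _)).abs (ig2.const_mul _)
    intro x
    have := sinh_sub_le (hs x)
    rw [mul_pow] at this
    exact this
  have hv2 : v ^ 2 ≤ (δ ^ 2 * V) ^ 2 := by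
    rw [← sq_abs v]
    exact pow_le_pow_left₀ (abs_nonneg _) hv1 2
  have hu2 : (1 + δ ^ 2 * V / 2) ^ 2 ≤ u ^ 2 := pow_le_pow_left₀ (by positivity) hu1 2
  -- the right-hand side
  have iq : Integrable (fun x => ‖fderiv ℝ f x‖ ^ 2) (gibbs U) :=
    bdd _ (by fun_prop) (G ^ 2) fun x => by
      rw [abs_of_nonneg (by positivity)]; exact pow_le_pow_left₀ (norm_nonneg _) (hG x) 2
  set Γ := ∫ x, ‖fderiv ℝ f x‖ ^ 2 ∂(gibbs U) with hΓ
  have hΓ0 : 0 ≤ Γ := integral_nonneg fun _ => by positivity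
  have hw1 : ∫ x, Real.exp (δ ^ 2 * (1 / 2 + δ * B) * ‖fderiv ℝ f x‖ ^ 2) ∂(gibbs U) ≤
      1 + δ ^ 2 * ((1 / 2 + δ * B) * Γ + δ ^ 2 * G ^ 4) := by
    have hq : ∀ x, 0 ≤ δ ^ 2 * (1 / 2 + δ * B) * ‖fderiv ℝ f x‖ ^ 2 ∧
        δ ^ 2 * (1 / 2 + δ * B) * ‖fderiv ℝ f x‖ ^ 2 ≤ δ ^ 2 * G ^ 2 := by
      intro x
      have h1 : ‖fderiv ℝ f x‖ ^ 2 ≤ G ^ 2 := pow_le_pow_left₀ (norm_nonneg _) (hG x) 2
      refine ⟨by positivity, ?_⟩
      calc δ ^ 2 * (1 / 2 + δ * B) * ‖fderiv ℝ f x‖ ^ 2 ≤ δ ^ 2 * 1 * G ^ 2 := by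
            gcongr
            linarith
        _ = δ ^ 2 * G ^ 2 := by ring
    have ie : Integrable (fun x => Real.exp (δ ^ 2 * (1 / 2 + δ * B) * ‖fderiv ℝ f x‖ ^ 2))
        (gibbs U) := bdd _ (by fun_prop) (Real.exp 1) fun x => by
      rw [abs_of_pos (Real.exp_pos _)]
      exact Real.exp_le_exp.2 ((hq x).2.trans hδG)
    have h1 : ∫ x, Real.exp (δ ^ 2 * (1 / 2 + δ * B) * ‖fderiv ℝ f x‖ ^ 2) ∂(gibbs U) ≤
        ∫ x, ((1 + δ ^ 4 * G ^ 4) + δ ^ 2 * (1 / 2 + δ * B) * ‖fderiv ℝ f x‖ ^ 2) ∂(gibbs U) := by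
      apply integral_mono ie ((integrable_const _).add (iq.const_mul _))
      intro x
      have h2 := Real.abs_exp_sub_one_sub_id_le
        (x := δ ^ 2 * (1 / 2 + δ * B) * ‖fderiv ℝ f x‖ ^ 2)
        (by rw [abs_of_nonneg (hq x).1]; exact (hq x).2.trans hδG)
      have h3 : (δ ^ 2 * (1 / 2 + δ * B) * ‖fderiv ℝ f x‖ ^ 2) ^ 2 ≤ (δ ^ 2 * G ^ 2) ^ 2 :=
        pow_le_pow_left₀ (hq x).1 (hq x).2 2
      have h4 := (abs_le.1 h2).2
      simp only [Pi.add_apply]
      nlinarith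
    rw [integral_add (integrable_const _) (iq.const_mul _), integral_const_mul] at h1
    simp only [integral_const, probReal_univ, smul_eq_mul, one_mul] at h1
    linarith
  have hw0 : 0 ≤ ∫ x, Real.exp (δ ^ 2 * (1 / 2 + δ * B) * ‖fderiv ℝ f x‖ ^ 2) ∂(gibbs U) :=
    integral_nonneg fun _ => Real.exp_nonneg _
  have hw2 := pow_le_pow_left₀ hw0 hw1 2
  have hδ2 : 0 < δ ^ 2 := by positivity
  set s := (1 / 2 + δ * B) * Γ + δ ^ 2 * G ^ 4 with hs'
  have hfin : δ ^ 2 * (V - δ ^ 2 * V ^ 2) ≤ δ ^ 2 * (2 * s + δ ^ 2 * s ^ 2) := by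
    have h5 : 0 ≤ (δ ^ 2 * V / 2) ^ 2 := sq_nonneg _
    have h6 : (1 + δ ^ 2 * V / 2) ^ 2 - (δ ^ 2 * V) ^ 2 ≤ (1 + δ ^ 2 * s) ^ 2 := by
      linarith only [hu2, hv2, hstep, hw2]
    have h7 : (1 + δ ^ 2 * V / 2) ^ 2 = 1 + δ ^ 2 * V + (δ ^ 2 * V / 2) ^ 2 := by ring
    have h8 : (1 + δ ^ 2 * s) ^ 2 = 1 + δ ^ 2 * (2 * s + δ ^ 2 * s ^ 2) := by ring
    have h9 : δ ^ 2 * (V - δ ^ 2 * V ^ 2) = δ ^ 2 * V - (δ ^ 2 * V) ^ 2 := by ring
    rw [h9]
    linarith only [h5, h6, h7, h8]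
  exact le_of_mul_le_mul_left hfin hδ2

theorem poincare_bdd {d : ℕ} {U : E d → ℝ} (hU : SPot U) {f : E d → ℝ} (hf : ContDiff ℝ 2 f)
    {A B G : ℝ} (hA : ∀ x, |f x| ≤ A) (hG : ∀ x, ‖fderiv ℝ f x‖ ≤ G) (hB0 : 0 ≤ B)
    (hB : ∀ x w, |fderiv ℝ (fderiv ℝ f) x w w| ≤ B * ‖w‖ ^ 2) :
    ∫ x, (f x - ∫ y, f y ∂(gibbs U)) ^ 2 ∂(gibbs U) ≤ ∫ x, ‖fderiv ℝ f x‖ ^ 2 ∂(gibbs U) := by
  set V := ∫ x, (f x - ∫ y, f y ∂(gibbs U)) ^ 2 ∂(gibbs U) with hV
  set Γ := ∫ x, ‖fderiv ℝ f x‖ ^ 2 ∂(gibbs U) with hΓ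
  have c1 : Continuous fun δ : ℝ => V - δ ^ 2 * V ^ 2 := by fun_prop
  have c2 : Continuous fun δ : ℝ => 2 * ((1 / 2 + δ * B) * Γ + δ ^ 2 * G ^ 4) +
        δ ^ 2 * ((1 / 2 + δ * B) * Γ + δ ^ 2 * G ^ 4) ^ 2 := by fun_prop
  have t1 := (c1.tendsto 0).mono_left (nhdsWithin_le_nhds (s := Set.Ioi 0))
  have t2 := (c2.tendsto 0).mono_left (nhdsWithin_le_nhds (s := Set.Ioi 0))
  have small : ∀ φ : ℝ → ℝ, Continuous φ → φ 0 = 0 → ∀ K : ℝ, 0 < K →
      ∀ᶠ δ in 𝓝[>] (0 : ℝ), φ δ ≤ K := by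
    intro φ hφ h0 K hK
    have : Filter.Tendsto φ (𝓝[>] 0) (𝓝 0) := by
      have := (hφ.tendsto 0).mono_left (nhdsWithin_le_nhds (s := Set.Ioi 0))
      rwa [h0] at this
    exact this.eventually_le_const hK
  have hle : ∀ᶠ δ in 𝓝[>] (0 : ℝ), V - δ ^ 2 * V ^ 2 ≤
      2 * ((1 / 2 + δ * B) * Γ + δ ^ 2 * G ^ 4) +
        δ ^ 2 * ((1 / 2 + δ * B) * Γ + δ ^ 2 * G ^ 4) ^ 2 := by
    filter_upwards [self_mem_nhdsWithin,
      small (fun δ => δ * B) (by fun_prop) (by simp) (1 / 2) (by norm_num),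
      small (fun δ => δ * (2 * A)) (by fun_prop) (by simp) 1 (by norm_num),
      small (fun δ => δ ^ 2 * G ^ 2) (by fun_prop) (by simp) 1 (by norm_num)] with δ h0 h1 h2 h3
    exact var_step hU hf hA hG hB0 hB h0 h1 h2 h3
  have := le_of_tendsto_of_tendsto t1 t2 hle
  norm_num at this
  linarith


theorem bounds_of_compact {d : ℕ} {F : Type*} [NormedAddCommGroup F] {φ : E d → F}
    (hc : Continuous φ) (hs : HasCompactSupport φ) : ∃ K : ℝ, 0 ≤ K ∧ ∀ x, ‖φ x‖ ≤ K := by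
  obtain ⟨x₀, hx₀⟩ := hc.norm.exists_forall_ge_of_hasCompactSupport hs.norm
  exact ⟨‖φ x₀‖, norm_nonneg _, hx₀⟩

theorem poincare_compact {d : ℕ} {U : E d → ℝ} (hU : SPot U) {f : E d → ℝ} (hf : ContDiff ℝ 2 f)
    (hs : HasCompactSupport f) :
    ∫ x, (f x - ∫ y, f y ∂(gibbs U)) ^ 2 ∂(gibbs U) ≤ ∫ x, ‖fderiv ℝ f x‖ ^ 2 ∂(gibbs U) := by
  have h1 : ContDiff ℝ 1 (fderiv ℝ f) := hf.fderiv_right (by norm_num)
  obtain ⟨A, -, hA⟩ := bounds_of_compact hf.continuous hs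
  obtain ⟨G, -, hG⟩ := bounds_of_compact h1.continuous (hs.fderiv (𝕜 := ℝ))
  obtain ⟨B, hB0, hB⟩ := bounds_of_compact (h1.continuous_fderiv (by norm_num))
    ((hs.fderiv (𝕜 := ℝ)).fderiv (𝕜 := ℝ))
  refine poincare_bdd hU hf (A := A) (B := B) (G := G) hA hG hB0 fun x w => ?_
  have h2 := (fderiv ℝ (fderiv ℝ f) x).le_opNorm₂ w w
  rw [Real.norm_eq_abs] at h2
  refine h2.trans ?_
  have h3 := mul_le_mul_of_nonneg_right (hB x) (sq_nonneg ‖w‖)
  nlinarith

section trunc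

variable {d : ℕ}

/-- cutoff -/
noncomputable def cut (χ : ContDiffBump (0 : E d)) (n : ℕ) (x : E d) : ℝ :=
  χ (((n : ℝ) + 1)⁻¹ • x)

theorem cut_contDiff (χ : ContDiffBump (0 : E d)) (n : ℕ) : ContDiff ℝ 2 (cut χ n) :=
  (χ.contDiff (n := 2)).comp (contDiff_const_smul _)

theorem cut_nonneg (χ : ContDiffBump (0 : E d)) (n : ℕ) (x : E d) : 0 ≤ cut χ n x := χ.nonneg

theorem cut_le (χ : ContDiffBump (0 : E d)) (n : ℕ) (x : E d) : cut χ n x ≤ 1 := χ.le_one

theorem cut_support (χ : ContDiffBump (0 : E d)) (n : ℕ) : HasCompactSupport (cut χ n) := by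
  have hc : ((n : ℝ) + 1)⁻¹ ≠ 0 := by positivity
  have h := χ.hasCompactSupport.comp_homeomorph (Homeomorph.smulOfNeZero _ hc)
  exact h

theorem cut_eventually (χ : ContDiffBump (0 : E d)) (hχ : χ.rIn = 1) {n : ℕ} {x : E d}
    (hx : ‖x‖ < (n : ℝ) + 1) : cut χ n =ᶠ[𝓝 x] fun _ => 1 := by
  have h1 : ∀ᶠ y in 𝓝 x, ‖y‖ < (n : ℝ) + 1 :=
    (continuous_norm.tendsto x).eventually_lt_const hx
  filter_upwards [h1] with y hy
  apply χ.one_of_mem_closedBall
  rw [hχ, Metric.mem_closedBall, dist_zero_right, norm_smul, norm_inv, Real.norm_eq_abs,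
    abs_of_pos (by positivity : (0 : ℝ) < (n : ℝ) + 1)]
  rw [inv_mul_le_iff₀ (by positivity), mul_one]
  exact hy.le

theorem cut_fderiv (χ : ContDiffBump (0 : E d)) {C : ℝ} (hC : ∀ x, ‖fderiv ℝ χ x‖ ≤ C) (n : ℕ)
    (x : E d) : ‖fderiv ℝ (cut χ n) x‖ ≤ C := by
  have hC0 : 0 ≤ C := (norm_nonneg _).trans (hC 0)
  have hd : Differentiable ℝ χ := (χ.contDiff (n := 1)).differentiable (by norm_num)
  have h1 : HasFDerivAt (cut χ n) ((fderiv ℝ χ (((n : ℝ) + 1)⁻¹ • x)).comp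
      (((n : ℝ) + 1)⁻¹ • ContinuousLinearMap.id ℝ (E d))) x :=
    (hd _).hasFDerivAt.comp x ((((n : ℝ) + 1)⁻¹ • ContinuousLinearMap.id ℝ (E d)).hasFDerivAt)
  rw [h1.fderiv]
  refine (ContinuousLinearMap.opNorm_comp_le _ _).trans ?_
  have h2 : ‖((n : ℝ) + 1)⁻¹ • ContinuousLinearMap.id ℝ (E d)‖ ≤ 1 := by
    rw [norm_smul, norm_inv, Real.norm_eq_abs, abs_of_pos (by positivity : (0 : ℝ) < (n : ℝ) + 1)]
    have h3 : ((n : ℝ) + 1)⁻¹ ≤ 1 := inv_le_one_of_one_le₀ (by linarith [Nat.cast_nonneg (α := ℝ) n])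
    have h4 : ‖ContinuousLinearMap.id ℝ (E d)‖ ≤ 1 := ContinuousLinearMap.norm_id_le
    have h5 : 0 ≤ ((n : ℝ) + 1)⁻¹ := by positivity
    nlinarith [norm_nonneg (ContinuousLinearMap.id ℝ (E d))]
  calc _ ≤ C * 1 := mul_le_mul (hC _) h2 (norm_nonneg _) hC0
    _ = C := mul_one C

theorem exists_trunc {f : E d → ℝ} (hfC : ContDiff ℝ 2 f) :
    ∃ (C : ℝ) (F : ℕ → E d → ℝ), 0 ≤ C ∧ (∀ n, ContDiff ℝ 2 (F n)) ∧
      (∀ n, HasCompactSupport (F n)) ∧ (∀ n x, |F n x| ≤ |f x|) ∧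
      (∀ n x, ‖fderiv ℝ (F n) x‖ ≤ ‖fderiv ℝ f x‖ + C * |f x|) ∧
      ∀ x, ∀ᶠ n : ℕ in Filter.atTop, F n x = f x ∧ fderiv ℝ (F n) x = fderiv ℝ f x := by
  set χ : ContDiffBump (0 : E d) := ⟨1, 2, one_pos, one_lt_two⟩ with hχ
  obtain ⟨C, hC0, hC⟩ := bounds_of_compact
    ((χ.contDiff (n := 1)).continuous_fderiv (by norm_num)) (χ.hasCompactSupport.fderiv (𝕜 := ℝ))
  refine ⟨C, fun n x => cut χ n x * f x, hC0, fun n => (cut_contDiff χ n).mul hfC,
    fun n => (cut_support χ n).mul_right, fun n x => ?_, fun n x => ?_, fun x => ?_⟩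
  · rw [abs_mul, abs_of_nonneg (cut_nonneg χ n x)]
    exact mul_le_of_le_one_left (abs_nonneg _) (cut_le χ n x)
  · have h1 : fderiv ℝ (fun x => cut χ n x * f x) x =
        cut χ n x • fderiv ℝ f x + f x • fderiv ℝ (cut χ n) x :=
      fderiv_fun_mul ((cut_contDiff χ n).differentiable (by norm_num) x)
        (hfC.differentiable (by norm_num) x)
    rw [h1]
    refine (norm_add_le _ _).trans (add_le_add ?_ ?_)
    · rw [norm_smul, Real.norm_eq_abs, abs_of_nonneg (cut_nonneg χ n x)]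
      exact mul_le_of_le_one_left (norm_nonneg _) (cut_le χ n x)
    · rw [norm_smul, Real.norm_eq_abs, mul_comm]
      exact mul_le_mul_of_nonneg_right (cut_fderiv χ hC n x) (abs_nonneg _)
  · obtain ⟨n₀, hn₀⟩ := exists_nat_gt ‖x‖
    filter_upwards [Filter.eventually_ge_atTop n₀] with n hn
    have hx : ‖x‖ < (n : ℝ) + 1 := by
      have : (n₀ : ℝ) ≤ n := by exact_mod_cast hn
      linarith
    have h1 : (fun x => cut χ n x * f x) =ᶠ[𝓝 x] f := by
      filter_upwards [cut_eventually χ rfl hx] with y hy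
      rw [hy, one_mul]
    exact ⟨h1.eq_of_nhds, h1.fderiv_eq⟩

end trunc

end Poin

theorem poincare {d : ℕ} {U : E d → ℝ} (hU : SPot U) {f : E d → ℝ} (hf : HasTemperateGrowth f) :
    ∫ x, (f x - ∫ y, f y ∂(gibbs U)) ^ 2 ∂(gibbs U) ≤ ∫ x, ‖gradient f x‖ ^ 2 ∂(gibbs U) := by
  have hprob := hU.prob
  have hng : ∀ x, ‖gradient f x‖ = ‖fderiv ℝ f x‖ := fun x => by
    unfold gradient
    rw [LinearIsometryEquiv.norm_map]
  have tg : HasTemperateGrowth (fun x => ‖fderiv ℝ f x‖ ^ 2) := by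
    have h1 : HasTemperateGrowth (fun x => ‖gradient f x‖ ^ 2) := by
      simp only [norm_gradient_sq]
      exact HasTemperateGrowth.sum (fun i _ => (temp_dir hf _).pow 2)
    simpa only [hng] using h1
  have hfC : ContDiff ℝ 2 f := hf.1.of_le (WithTop.coe_le_coe.2 (le_top : (2 : ℕ∞) ≤ ⊤))
  have hfc := hfC.continuous
  have hfc1 : Continuous (fderiv ℝ f) := hfC.continuous_fderiv (by norm_num)
  have i1 : Integrable f (gibbs U) := gibbs_integrable hU hf
  have i2 : Integrable (fun x => f x ^ 2) (gibbs U) := gibbs_integrable hU (hf.pow 2)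
  have i3 : Integrable (fun x => ‖fderiv ℝ f x‖ ^ 2) (gibbs U) := gibbs_integrable hU tg
  simp only [hng]
  obtain ⟨C, F, hC0, hFc, hFs, hF1, hF2, hev⟩ := Poin.exists_trunc hfC
  have T1 : Filter.Tendsto (fun n => ∫ x, F n x ∂(gibbs U)) Filter.atTop
      (𝓝 (∫ x, f x ∂(gibbs U))) := by
    refine tendsto_integral_of_dominated_convergence (fun x => |f x|)
      (fun n => (hFc n).continuous.aestronglyMeasurable) i1.abs
      (fun n => Filter.Eventually.of_forall (hF1 n)) (Filter.Eventually.of_forall fun x => ?_)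
    exact tendsto_const_nhds.congr' ((hev x).mono fun n hn => hn.1.symm)
  have T2 : Filter.Tendsto (fun n => ∫ x, F n x ^ 2 ∂(gibbs U)) Filter.atTop
      (𝓝 (∫ x, f x ^ 2 ∂(gibbs U))) := by
    refine tendsto_integral_of_dominated_convergence (fun x => f x ^ 2)
      (fun n => ((hFc n).continuous.pow 2).aestronglyMeasurable) i2
      (fun n => Filter.Eventually.of_forall fun x => ?_) (Filter.Eventually.of_forall fun x => ?_)
    · rw [Real.norm_eq_abs, abs_pow, ← sq_abs (f x)]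
      exact pow_le_pow_left₀ (abs_nonneg _) (hF1 n x) 2
    · exact tendsto_const_nhds.congr' ((hev x).mono fun n hn => by simp only [hn.1])
  have mF : ∀ n, AEStronglyMeasurable (fun x => ‖fderiv ℝ (F n) x‖ ^ 2) (gibbs U) := by
    intro n
    have h : Continuous (fderiv ℝ (F n)) := (hFc n).continuous_fderiv (by norm_num)
    have h' : Continuous (fun x => ‖fderiv ℝ (F n) x‖ ^ 2) := h.norm.pow 2
    exact h'.aestronglyMeasurable
  have i4 : Integrable (fun x => 2 * ‖fderiv ℝ f x‖ ^ 2 + 2 * C ^ 2 * f x ^ 2) (gibbs U) :=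
    (i3.const_mul 2).add (i2.const_mul (2 * C ^ 2))
  have T3 : Filter.Tendsto (fun n => ∫ x, ‖fderiv ℝ (F n) x‖ ^ 2 ∂(gibbs U)) Filter.atTop
      (𝓝 (∫ x, ‖fderiv ℝ f x‖ ^ 2 ∂(gibbs U))) := by
    refine tendsto_integral_of_dominated_convergence
      (fun x => 2 * ‖fderiv ℝ f x‖ ^ 2 + 2 * C ^ 2 * f x ^ 2)
      mF i4
      (fun n => Filter.Eventually.of_forall fun x => ?_) (Filter.Eventually.of_forall fun x => ?_)
    · rw [Real.norm_eq_abs, abs_of_nonneg (by positivity)]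
      have h1 := pow_le_pow_left₀ (norm_nonneg _) (hF2 n x) 2
      have h2 : 0 ≤ (‖fderiv ℝ f x‖ - C * |f x|) ^ 2 := sq_nonneg _
      have h3 : |f x| ^ 2 = f x ^ 2 := sq_abs _
      nlinarith
    · exact tendsto_const_nhds.congr' ((hev x).mono fun n hn => by simp only [hn.2])
  have var : ∀ g : E d → ℝ, Integrable g (gibbs U) → Integrable (fun x => g x ^ 2) (gibbs U) →
      ∫ x, (g x - ∫ y, g y ∂(gibbs U)) ^ 2 ∂(gibbs U) =
        ∫ x, g x ^ 2 ∂(gibbs U) - (∫ x, g x ∂(gibbs U)) ^ 2 := by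
    intro g h1 h2
    set a := ∫ y, g y ∂(gibbs U) with ha
    have h3 : ∀ x, (g x - a) ^ 2 = g x ^ 2 - (2 * a) * g x + a ^ 2 := fun x => by ring
    simp only [h3]
    have h4 : Integrable (fun x => g x ^ 2 - 2 * a * g x) (gibbs U) := h2.sub (h1.const_mul _)
    rw [integral_add h4 (integrable_const _), integral_sub h2 (h1.const_mul _), integral_const_mul]
    simp only [integral_const, probReal_univ, smul_eq_mul, one_mul, ← ha]
    ring
  rw [var f i1 i2]
  have hle : ∀ n, ∫ x, F n x ^ 2 ∂(gibbs U) - (∫ x, F n x ∂(gibbs U)) ^ 2 ≤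
      ∫ x, ‖fderiv ℝ (F n) x‖ ^ 2 ∂(gibbs U) := by
    intro n
    obtain ⟨K, -, hK⟩ := Poin.bounds_of_compact (hFc n).continuous (hFs n)
    have j1 : Integrable (F n) (gibbs U) :=
      Integrable.of_bound (hFc n).continuous.aestronglyMeasurable K (Filter.Eventually.of_forall hK)
    have j2 : Integrable (fun x => F n x ^ 2) (gibbs U) :=
      Integrable.of_bound ((hFc n).continuous.pow 2).aestronglyMeasurable (K ^ 2)
        (Filter.Eventually.of_forall fun x => by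
          rw [norm_pow]; exact pow_le_pow_left₀ (norm_nonneg _) (hK x) 2)
    rw [← var (F n) j1 j2]
    exact Poin.poincare_compact hU (hFc n) (hFs n)
  exact le_of_tendsto_of_tendsto' (T2.sub (T1.pow 2)) T3 hle

end P347Q
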