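import Vale.Agent.P347Q.Moments
import Vale.Agent.P347Q.Poincare

/-!
Module VarLap.  `Var_π ΔU ≤ 100 d`: `ΔU = (ΔU - |∇U|²) + |∇U|²`, `bochner`, and Poincaré for
`f = |∇U|²` (`‖∇|∇U|²‖ = ‖2 Hess U ∇U‖ ≤ 4‖∇U‖`, `E|∇U|² ≤ 2d`).
-/

open MeasureTheory ProbabilityTheory Function
open scoped ENNReal BigOperators

namespace P347Q

theorem norm_grad_grad_sq {d : ℕ} {U : E d → ℝ} (hU : SPot U) (x : E d) :
    ‖gradient (fun y => ‖gradient U y‖ ^ 2) x‖ ≤ 4 * ‖gradient U x‖ := by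
  rw [norm_gradient]
  refine ContinuousLinearMap.opNorm_le_bound _ (by positivity) fun w => ?_
  have h1 : (fun y => ‖gradient U y‖ ^ 2) = fun y => ∑ i, (fderiv ℝ U y (bas d i)) ^ 2 := by
    funext y
    rw [norm_gradient_sq]
  have h2 : HasFDerivAt (fun y => ∑ i, (fderiv ℝ U y (bas d i)) ^ 2)
      (∑ i, ((2 : ℕ) • (fderiv ℝ U x (bas d i)) ^ (2 - 1)) •
        fderiv ℝ (fun y => fderiv ℝ U y (bas d i)) x) x := by
    apply HasFDerivAt.fun_sum
    intro i _
    exact (temp_diff (temp_dir hU.temp (bas d i)) x).hasFDerivAt.pow 2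
  rw [h1, h2.fderiv]
  have h3 : (∑ i, ((2 : ℕ) • (fderiv ℝ U x (bas d i)) ^ (2 - 1)) •
        fderiv ℝ (fun y => fderiv ℝ U y (bas d i)) x) w =
      2 * fderiv ℝ (fderiv ℝ U) x w (gradient U x) := by
    conv_rhs => rw [← sum_bas (gradient U x)]
    rw [map_sum, Finset.mul_sum, sum_apply]
    refine Finset.sum_congr rfl fun i _ => ?_
    rw [smul_apply, fderiv_dir hU.temp, map_smul, gradient_apply]
    simp only [smul_eq_mul, nsmul_eq_mul]
    push_cast
    ring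
  rw [h3, Real.norm_eq_abs, abs_mul, abs_of_pos (by norm_num : (0 : ℝ) < 2)]
  have := hU.hess_abs x w (gradient U x)
  linarith

theorem var_lap {d : ℕ} {U : E d → ℝ} (hU : SPot U) :
    ∫ x, (lap U x - ∫ y, lap U y ∂(gibbs U)) ^ 2 ∂(gibbs U) ≤ 100 * d := by
  have hp := hU.prob
  have tl := temp_lap hU.temp
  have tg := temp_gradient_sq hU.temp
  have iA : Integrable (fun x => lap U x - ‖gradient U x‖ ^ 2) (gibbs U) :=
    gibbs_integrable hU (tsub tl tg)
  have iB : Integrable (fun x => ‖gradient U x‖ ^ 2) (gibbs U) := gibbs_integrable hU tg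
  set a := ∫ y, (lap U y - ‖gradient U y‖ ^ 2) ∂(gibbs U) with ha
  set b := ∫ y, ‖gradient U y‖ ^ 2 ∂(gibbs U) with hb
  have hab : ∫ y, lap U y ∂(gibbs U) = a + b := by
    rw [ha, hb, ← integral_add iA iB]
    simp
  have tc : ∀ c : ℝ, HasTemperateGrowth (fun _ : E d => c) := fun c => HasTemperateGrowth.const c
  have iA2 : Integrable (fun x => (lap U x - ‖gradient U x‖ ^ 2) ^ 2) (gibbs U) :=
    gibbs_integrable hU (tpow (tsub tl tg) 2)
  have iA3 : Integrable (fun x => (lap U x - ‖gradient U x‖ ^ 2 - a) ^ 2) (gibbs U) :=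
    gibbs_integrable hU (tpow (tsub (tsub tl tg) (tc a)) 2)
  have iB3 : Integrable (fun x => (‖gradient U x‖ ^ 2 - b) ^ 2) (gibbs U) :=
    gibbs_integrable hU (tpow (tsub tg (tc b)) 2)
  have iL : Integrable (fun x => (lap U x - (a + b)) ^ 2) (gibbs U) :=
    gibbs_integrable hU (tpow (tsub tl (tc _)) 2)
  have hA : ∫ x, (lap U x - ‖gradient U x‖ ^ 2 - a) ^ 2 ∂(gibbs U) ≤ 8 * d := by
    have e : ∫ x, (lap U x - ‖gradient U x‖ ^ 2 - a) ^ 2 ∂(gibbs U) =
        ∫ x, (lap U x - ‖gradient U x‖ ^ 2) ^ 2 ∂(gibbs U) - a ^ 2 := by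
      have e1 : ∀ x, (lap U x - ‖gradient U x‖ ^ 2 - a) ^ 2 =
          (lap U x - ‖gradient U x‖ ^ 2) ^ 2 - (2 * a * (lap U x - ‖gradient U x‖ ^ 2) - a ^ 2) := by
        intro x
        ring
      simp only [e1]
      have i5 : Integrable (fun x => 2 * a * (lap U x - ‖gradient U x‖ ^ 2) - a ^ 2) (gibbs U) :=
        (iA.const_mul (2 * a)).sub (integrable_const _)
      rw [integral_sub iA2 i5,
        integral_sub (iA.const_mul (2 * a)) (integrable_const _), integral_const_mul, ← ha]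
      simp
      ring
    have := bochner hU
    rw [e]
    nlinarith [sq_nonneg a]
  have hB : ∫ x, (‖gradient U x‖ ^ 2 - b) ^ 2 ∂(gibbs U) ≤ 32 * d := by
    refine (poincare hU tg).trans ?_
    have h16 : ∫ x, ‖gradient (fun y => ‖gradient U y‖ ^ 2) x‖ ^ 2 ∂(gibbs U) ≤
        ∫ x, 16 * ‖gradient U x‖ ^ 2 ∂(gibbs U) := by
      refine integral_mono (gibbs_integrable hU (temp_gradient_sq tg)) (iB.const_mul 16) ?_
      intro x
      have := norm_grad_grad_sq hU x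
      have h2 : ‖gradient (fun y => ‖gradient U y‖ ^ 2) x‖ ^ 2 ≤ (4 * ‖gradient U x‖) ^ 2 := by
        gcongr
      calc ‖gradient (fun y => ‖gradient U y‖ ^ 2) x‖ ^ 2 ≤ (4 * ‖gradient U x‖) ^ 2 := h2
        _ = 16 * ‖gradient U x‖ ^ 2 := by ring
    rw [integral_const_mul] at h16
    have := gibbs_grad_sq hU
    linarith
  rw [hab]
  calc ∫ x, (lap U x - (a + b)) ^ 2 ∂(gibbs U) ≤
      ∫ x, (2 * (lap U x - ‖gradient U x‖ ^ 2 - a) ^ 2 + 2 * (‖gradient U x‖ ^ 2 - b) ^ 2)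
        ∂(gibbs U) := by
        refine integral_mono iL ((iA3.const_mul 2).add (iB3.const_mul 2)) ?_
        intro x
        simp only
        nlinarith [sq_nonneg ((lap U x - ‖gradient U x‖ ^ 2 - a) - (‖gradient U x‖ ^ 2 - b))]
    _ = 2 * ∫ x, (lap U x - ‖gradient U x‖ ^ 2 - a) ^ 2 ∂(gibbs U) +
        2 * ∫ x, (‖gradient U x‖ ^ 2 - b) ^ 2 ∂(gibbs U) := by
        rw [integral_add (iA3.const_mul 2) (iB3.const_mul 2), integral_const_mul,
          integral_const_mul]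
    _ ≤ 100 * d := by
        have : (0 : ℝ) ≤ d := Nat.cast_nonneg d
        linarith

end P347Q
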